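import Vale.Agent.P370.H220.ClockBounds

/-!
# P370, block F1: the branching clock theorem

`upperStmt : UpperStmt`, `lowerStmt : LowerStmt` (definitions in `ClockDefs.lean`).
-/

namespace Vale.Agent.P370.H220

open Finset

/-! ### evaluation of the forms of lists of terms -/

section Forms
variable {κ : Type*} [DecidableEq κ] [Fintype κ]

theorem form_nil (ψ : (κ → Bool) → ℝ) : form ([] : List (Term κ)) ψ = 0 := rfl

theorem form_cons (t : Term κ) (L : List (Term κ)) (ψ : (κ → Bool) → ℝ) :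
    form (t :: L) ψ = t.form ψ + form L ψ := rfl

theorem form_append (L L' : List (Term κ)) (ψ : (κ → Bool) → ℝ) :
    form (L ++ L') ψ = form L ψ + form L' ψ := by
  unfold form; rw [List.map_append, List.sum_append]

theorem tI_form (c : ℚ) (i : κ) (ψ : (κ → Bool) → ℝ) :
    (tI c i).form ψ = ∑ z, (c : ℝ) * ψ z ^ 2 := by
  unfold Term.form Term.coef tI
  rw [mul_sum]
  refine sum_congr rfl fun z _ => ?_
  simp only [Ax.op, Nat.cast_zero, zero_mul, zero_div, Real.cos_zero, mul_one]
  ring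

theorem tZ_form (c : ℚ) (i : κ) (ψ : (κ → Bool) → ℝ) :
    (tZ c i).form ψ = ∑ z, (c : ℝ) * sg (z i) * ψ z ^ 2 := by
  unfold Term.form Term.coef tZ
  rw [mul_sum]
  refine sum_congr rfl fun z _ => ?_
  simp only [Ax.op, Nat.cast_zero, zero_mul, zero_div, Real.cos_zero, mul_one]
  ring

theorem tZZ_form (c : ℚ) (i j : κ) (ψ : (κ → Bool) → ℝ) :
    (tZZ c i j).form ψ = ∑ z, (c : ℝ) * (sg (z i) * sg (z j)) * ψ z ^ 2 := by
  unfold Term.form Term.coef tZZ
  rw [mul_sum]
  refine sum_congr rfl fun z _ => ?_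
  simp only [Ax.op, Nat.cast_zero, zero_mul, zero_div, Real.cos_zero, mul_one]
  ring

theorem tPP_form (c σ τ : ℚ) (i j : κ) (ψ : (κ → Bool) → ℝ) :
    form (tPP c σ τ i j) ψ =
      ∑ z, (c : ℝ) * ((1 + σ * sg (z i)) * (1 + τ * sg (z j))) * ψ z ^ 2 := by
  unfold tPP
  rw [form_cons, form_cons, form_cons, form_cons, form_nil, tI_form, tZ_form, tZ_form, tZZ_form,
    add_zero, ← sum_add_distrib, ← sum_add_distrib, ← sum_add_distrib]
  refine sum_congr rfl fun z _ => ?_
  push_cast
  ring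

theorem cos_shift (l : ℕ) : Real.cos (((l + 12 : ℕ) : ℝ) * Real.pi / 8) =
    Real.sin (l * Real.pi / 8) := by
  have h : ((l + 12 : ℕ) : ℝ) * Real.pi / 8 = (l * Real.pi / 8 - Real.pi / 2) + 2 * Real.pi := by
    push_cast; ring
  rw [h, Real.cos_add_two_pi, Real.cos_sub_pi_div_two]

theorem tFlip_form (c : ℚ) (k : κ) (w : Option (κ × ℕ)) (hw : ∀ s l, w = some (s, l) → s ≠ k)
    (ψ : (κ → Bool) → ℝ) : form (tFlip c k w) ψ = -(c : ℝ) * trf k w ψ ψ := by
  rcases w with _ | ⟨s, l⟩
  · unfold tFlip trf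
    rw [form_cons, form_nil, add_zero]
    unfold Term.form Term.coef
    simp only [Ax.op, Nat.cast_zero, zero_mul, zero_div, Real.cos_zero, mul_one, rop]
    push_cast
    ring
  · have hs : s ≠ k := hw s l rfl
    unfold tFlip trf
    simp only
    rw [form_cons, form_cons, form_nil, add_zero]
    unfold Term.form Term.coef
    simp only [Ax.op, rop, cos_shift, flp_ne hs, flp_comm s k]
    rw [mul_sum, mul_sum, mul_sum, ← sum_add_distrib]
    refine sum_congr rfl fun z _ => ?_
    push_cast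
    ring

end Forms

section Main
variable {ι κ : Type*} [DecidableEq ι] [DecidableEq κ] [Fintype ι] [Fintype κ]

/-- the two clock bits of a step -/
def cc (ca cb : ℕ → κ) (j : ℕ) (e : Bool) : κ := if e then cb j else ca j

omit [DecidableEq ι] [DecidableEq κ] [Fintype ι] [Fintype κ] in
theorem Lay.toC {dat : ι → κ} {ca cb : ℕ → κ} {S : ℕ} (h : Lay dat ca cb S) :
    LayC dat (cc ca cb) S where
  dat_inj := h.dat_inj
  c_inj := by
    intro j k e e' hj hk hh
    cases e <;> cases e' <;> simp only [cc, if_true, if_false, Bool.false_eq_true] at hh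
    · exact ⟨h.ca_inj j k hj hk hh, rfl⟩
    · exact absurd hh (h.ca_cb j k hj hk)
    · exact absurd hh.symm (h.ca_cb k j hk hj)
    · exact ⟨h.cb_inj j k hj hk hh, rfl⟩
  c_dat := by
    intro j e i hj
    cases e <;> simp only [cc, if_true, if_false, Bool.false_eq_true]
    · exact h.ca_dat j i hj
    · exact h.cb_dat j i hj
  surj := by
    intro z
    rcases h.surj z with h1 | ⟨j, hj, h1⟩ | ⟨j, hj, h1⟩
    · exact Or.inl h1
    · exact Or.inr ⟨j, hj, false, by simpa [cc] using h1⟩
    · exact Or.inr ⟨j, hj, true, by simpa [cc] using h1⟩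

omit [DecidableEq ι] [Fintype ι] in
theorem stepTerms_form {dat : ι → κ} {ca cb : ℕ → κ} {S : ℕ} (h : Lay dat ca cb S)
    (L1 L2 : ℚ) {j : ℕ} (hj : j < S) (f : ℕ → ι) (g : Step ι) (hf : f j = g.f)
    (ψ : (κ → Bool) → ℝ) :
    form (stepTerms L1 L2 ca cb j (g.map dat)) ψ =
      ∑ z, (L1 : ℝ) * braP dat (cc ca cb) f j z * ψ z ^ 2 -
        L2 / 2 * (trf (ca j) (wmap dat g.u) ψ ψ + trf (cb j) (wmap dat g.v) ψ ψ) := by
  have hu := wmap_ne h.toC hj false g.u
  have hv := wmap_ne h.toC hj true g.v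
  simp only [cc, if_true, if_false, Bool.false_eq_true] at hu hv
  unfold stepTerms
  rw [form_append, form_append, form_cons, form_cons, form_cons, form_cons, form_nil]
  simp only [Step.map]
  have e1 := tFlip_form (L2 / 2) (ca j) (wmap dat g.u) hu ψ
  have e2 := tFlip_form (L2 / 2) (cb j) (wmap dat g.v) hv ψ
  unfold wmap at e1 e2
  rw [e1, e2, tI_form, tZZ_form, tZZ_form, tZZ_form, add_zero]
  have e3 : ∑ z : κ → Bool, (((L1 / 2 : ℚ) : ℝ)) * ψ z ^ 2 +
      (∑ z : κ → Bool, ((-(L1 / 2) : ℚ) : ℝ) * (sg (z (ca j)) * sg (z (cb j))) * ψ z ^ 2 +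
      (∑ z : κ → Bool, ((L1 / 2 : ℚ) : ℝ) * (sg (z (ca j)) * sg (z (dat g.f))) * ψ z ^ 2 +
      ∑ z : κ → Bool, ((-(L1 / 2) : ℚ) : ℝ) * (sg (z (cb j)) * sg (z (dat g.f))) * ψ z ^ 2)) =
      ∑ z, (L1 : ℝ) * braP dat (cc ca cb) f j z * ψ z ^ 2 := by
    rw [← sum_add_distrib, ← sum_add_distrib, ← sum_add_distrib]
    refine sum_congr rfl fun z _ => ?_
    have hb : ∀ b : Bool, nb b = (1 - sg b) / 2 := by intro b; cases b <;> simp [nb, sg]
    simp only [braP, cc, if_true, if_false, Bool.false_eq_true, hf, hb]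
    push_cast
    ring
  rw [e3]
  unfold wmap
  push_cast
  ring

omit [Fintype ι] [DecidableEq ι] in
theorem orderTerms_form (L1 : ℚ) (ca cb : ℕ → κ) (j : ℕ) (ψ : (κ → Bool) → ℝ) :
    form (orderTerms L1 ca cb j) ψ = ∑ z, (L1 : ℝ) * ordP (cc ca cb) j z * ψ z ^ 2 := by
  unfold orderTerms
  rw [form_append, form_append, form_append, tPP_form, tPP_form, tPP_form, tPP_form,
    ← sum_add_distrib, ← sum_add_distrib, ← sum_add_distrib]
  refine sum_congr rfl fun z _ => ?_
  have hb : ∀ b : Bool, nb b = (1 - sg b) / 2 := by intro b; cases b <;> simp [nb, sg]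
  simp only [ordP, Fintype.sum_bool, cc, if_true, if_false, Bool.false_eq_true, hb]
  push_cast
  ring

omit [Fintype ι] [DecidableEq ι] in
theorem stepsTerms_form (L1 L2 : ℚ) (ca cb : ℕ → κ) (d : Step κ) (ψ : (κ → Bool) → ℝ)
    (L : List (Step κ)) : ∀ j : ℕ,
    form (stepsTerms L1 L2 ca cb j L) ψ =
      ∑ i ∈ range L.length, form (stepTerms L1 L2 ca cb (j + i) (L.getD i d)) ψ +
      ∑ i ∈ range (L.length - 1), form (orderTerms L1 ca cb (j + i)) ψ := by
  induction L with
  | nil => intro j; simp [stepsTerms, form_nil]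
  | cons g L ih =>
    intro j
    cases L with
    | nil => simp [stepsTerms]
    | cons g' L =>
      rw [stepsTerms, form_append, form_append, ih (j + 1)]
      have e1 : (g :: g' :: L).length = (g' :: L).length + 1 := rfl
      have e2 : (g' :: L).length + 1 - 1 = ((g' :: L).length - 1) + 1 := by simp
      rw [e1, e2, sum_range_succ' (fun i => form (stepTerms L1 L2 ca cb (j + i)
        ((g :: g' :: L).getD i d)) ψ), sum_range_succ' (fun i => form (orderTerms L1 ca cb (j + i)) ψ)]
      have e3 : ∀ i, (g :: g' :: L).getD (i + 1) d = (g' :: L).getD i d := fun i => rfl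
      have e4 : (g :: g' :: L).getD 0 d = g := rfl
      simp only [e3, e4, add_zero]
      have e5 : ∀ i, j + 1 + i = j + (i + 1) := fun i => by ring
      simp only [e5]
      ring

omit [DecidableEq ι] [Fintype ι] in
/-- `form` of the clock Hamiltonian is the energy functional -/
theorem hamW_form {dat : ι → κ} {ca cb : ℕ → κ} (anc : List ι) (out : ι) (L : List (Step ι))
    (h : Lay dat ca cb (L.length + 2)) (L1 L2 L3 : ℚ) (ψ : (κ → Bool) → ℝ) :
    form (hamW L1 L2 L3 ca cb (anc.map dat) (dat out) (L.map (Step.map dat))) ψ =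
      En dat (cc ca cb) (L.length + 2)
        (fun j => ((pad out L).getD j ⟨out, none, none⟩).f)
        (fun j e => if e then ((pad out L).getD j ⟨out, none, none⟩).v
          else ((pad out L).getD j ⟨out, none, none⟩).u)
        anc out L1 L2 L3 ψ := by
  set d : Step ι := ⟨out, none, none⟩ with hd
  set P := pad out L with hP
  set f : ℕ → ι := fun j => (P.getD j d).f with hf
  have hpadmap : pad (dat out) (L.map (Step.map dat)) = P.map (Step.map dat) := by
    simp [hP, pad, Step.map]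
  have hlen : P.length = L.length + 2 := by simp [hP, pad]
  unfold hamW
  rw [hpadmap, form_append, form_append, form_append, form_append, form_cons,
    stepsTerms_form L1 L2 ca cb (d.map dat) ψ, List.length_map, List.length_map, hlen, tI_form,
    tPP_form, tPP_form, tPP_form]
  have e1 : ∀ i ∈ range (L.length + 2),
      form (stepTerms L1 L2 ca cb (0 + i) ((P.map (Step.map dat)).getD i (d.map dat))) ψ =
      ∑ z, (L1 : ℝ) * braP dat (cc ca cb) f i z * ψ z ^ 2 -
        L2 / 2 * ∑ e : Bool, trf (cc ca cb i e) (wmap dat (if e then (P.getD i d).v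
          else (P.getD i d).u)) ψ ψ := by
    intro i hi
    rw [List.getD_map, zero_add, stepTerms_form h L1 L2 (mem_range.1 hi) f (P.getD i d) rfl ψ,
      Fintype.sum_bool]
    simp only [cc, if_true, if_false, Bool.false_eq_true]
    ring
  have e2 : ∀ i ∈ range (L.length + 2 - 1), form (orderTerms L1 ca cb (0 + i)) ψ =
      ∑ z, (L1 : ℝ) * ordP (cc ca cb) i z * ψ z ^ 2 := by
    intro i _
    rw [zero_add, orderTerms_form]
  rw [sum_congr rfl e1, sum_congr rfl e2, sum_sub_distrib, ← mul_sum]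
  have e3 : form ((anc.map dat).flatMap fun i => tPP (L3 / 4) 1 (-1) (ca 0) i) ψ =
      ∑ z, (L3 : ℝ) * ((1 - nb (z (ca 0))) * nviol anc fun i => z (dat i)) * ψ z ^ 2 := by
    clear h e1 e2 hpadmap hlen
    induction anc with
    | nil => simp [form_nil, nviol]
    | cons i anc ih =>
      rw [List.map_cons, List.flatMap_cons, form_append, ih, tPP_form, ← sum_add_distrib]
      refine sum_congr rfl fun z _ => ?_
      have hb : ∀ b : Bool, nb b = (1 - sg b) / 2 := by intro b; cases b <;> simp [nb, sg]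
      simp only [nviol, List.map_cons, List.sum_cons, hb]
      push_cast
      ring
  have c1 : ∑ i ∈ range (L.length + 2), ∑ z, (L1 : ℝ) * braP dat (cc ca cb) f i z * ψ z ^ 2 =
      ∑ z, ∑ i ∈ range (L.length + 2), (L1 : ℝ) * braP dat (cc ca cb) f i z * ψ z ^ 2 := sum_comm
  have c2 : ∑ i ∈ range (L.length + 2 - 1), ∑ z, (L1 : ℝ) * ordP (cc ca cb) i z * ψ z ^ 2 =
      ∑ z, ∑ i ∈ range (L.length + 2 - 1), (L1 : ℝ) * ordP (cc ca cb) i z * ψ z ^ 2 := sum_comm
  rw [e3, c1, c2]
  unfold En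
  have e4 : ∑ z, (L1 * DD dat (cc ca cb) f (L.length + 2) z +
      dg dat (cc ca cb) (L.length + 2) anc out (L2 : ℝ) L3 z) * ψ z ^ 2 =
      ∑ z, ∑ i ∈ range (L.length + 2), (L1 : ℝ) * braP dat (cc ca cb) f i z * ψ z ^ 2 +
      ∑ z, ∑ i ∈ range (L.length + 2 - 1), (L1 : ℝ) * ordP (cc ca cb) i z * ψ z ^ 2 +
      (∑ z, (L2 : ℝ) * ψ z ^ 2 + ∑ z, ((-(L2 / 8) : ℚ) : ℝ) *
        ((1 + ((1 : ℚ) : ℝ) * sg (z (ca 0))) * (1 + ((1 : ℚ) : ℝ) * sg (z (cb 0)))) * ψ z ^ 2) +
      ∑ z, ((-(L2 / 8) : ℚ) : ℝ) * ((1 + ((-1 : ℚ) : ℝ) * sg (z (ca (L.length + 1)))) *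
        (1 + ((-1 : ℚ) : ℝ) * sg (z (cb (L.length + 1))))) * ψ z ^ 2 +
      ∑ z, (L3 : ℝ) * ((1 - nb (z (ca 0))) * nviol anc fun i => z (dat i)) * ψ z ^ 2 +
      ∑ z, ((1 / 4 : ℚ) : ℝ) * ((1 + ((-1 : ℚ) : ℝ) * sg (z (cb (L.length + 1)))) *
        (1 + ((1 : ℚ) : ℝ) * sg (z (dat out)))) * ψ z ^ 2 := by
    have c3 : ∀ z, ∑ i ∈ range (L.length + 2), (L1 : ℝ) * braP dat (cc ca cb) f i z * ψ z ^ 2 =
        L1 * (∑ i ∈ range (L.length + 2), braP dat (cc ca cb) f i z) * ψ z ^ 2 := fun z => by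
      rw [mul_sum, sum_mul]
    have c4 : ∀ z, ∑ i ∈ range (L.length + 2 - 1), (L1 : ℝ) * ordP (cc ca cb) i z * ψ z ^ 2 =
        L1 * (∑ i ∈ range (L.length + 2 - 1), ordP (cc ca cb) i z) * ψ z ^ 2 := fun z => by
      rw [mul_sum, sum_mul]
    rw [sum_congr rfl fun z _ => c3 z, sum_congr rfl fun z _ => c4 z, ← sum_add_distrib,
      ← sum_add_distrib, ← sum_add_distrib, ← sum_add_distrib, ← sum_add_distrib,
      ← sum_add_distrib]
    refine sum_congr rfl fun z _ => ?_
    have hb : ∀ b : Bool, nb b = (1 - sg b) / 2 := by intro b; cases b <;> simp [nb, sg]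
    unfold DD dg
    simp only [cc, if_true, if_false, Bool.false_eq_true, hb,
      show L.length + 2 - 1 = L.length + 1 from rfl]
    push_cast
    ring
  rw [e4]
  ring

/-! ### the evolution is the circuit -/

omit [Fintype ι] in
theorem two_steps (f : ℕ → ι) (w : ℕ → Bool → Option (ι × ℕ)) (g : Step ι) (hg : g.WF) (j : ℕ)
    (hf : f j = g.f) (hu : w j false = g.u) (hv : w j true = g.v) (φ : (ι → Bool) → ℝ) :
    Wt f w (2 * j + 1) (Wt f w (2 * j) φ) = g.op φ := by
  have d1 : (2 * j + 1) / 2 = j := by omega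
  have d2 : (2 * j) / 2 = j := by omega
  have b1 : ∀ y, bit f (2 * j + 1) y = !(y g.f) := by
    intro y; unfold bit; rw [if_neg (by omega), d1, hf]
  have b2 : ∀ y, bit f (2 * j) y = y g.f := by
    intro y; unfold bit; rw [if_pos (by omega), d2, hf]
  funext x
  unfold Step.op
  show rop (w ((2 * j + 1) / 2) (bit f (2 * j + 1) x)) (Wt f w (2 * j) φ) x = _
  rw [d1, b1]
  cases hx : x g.f
  · rw [if_neg (by simp), Bool.not_false, hv]
    refine rop_congr _ _ _ _ ?_ fun s k hk => ?_
    · show rop (w ((2 * j) / 2) (bit f (2 * j) x)) φ x = _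
      rw [d2, b2, hx, hu]
    · show rop (w ((2 * j) / 2) (bit f (2 * j) (flp s x))) φ (flp s x) = _
      rw [d2, b2, flp_ne (Ne.symm (hg.2 s k hk)), hx, hu]
  · rw [if_pos rfl, Bool.not_true, hu]
    refine rop_congr _ _ _ _ ?_ fun s k hk => ?_
    · show rop (w ((2 * j) / 2) (bit f (2 * j) x)) φ x = _
      rw [d2, b2, hx, hv]
    · show rop (w ((2 * j) / 2) (bit f (2 * j) (flp s x))) φ (flp s x) = _
      rw [d2, b2, flp_ne (Ne.symm (hg.1 s k hk)), hx, hv]

omit [Fintype ι] in
theorem run_append (L L' : List (Step ι)) (φ : (ι → Bool) → ℝ) :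
    run (L ++ L') φ = run L' (run L φ) := List.foldl_append

omit [Fintype ι] in
theorem idle_op (i : ι) (φ : (ι → Bool) → ℝ) : (⟨i, none, none⟩ : Step ι).op φ = φ := by
  funext x; simp [Step.op, rop]

omit [Fintype ι] in
theorem run_pad (out : ι) (L : List (Step ι)) (φ : (ι → Bool) → ℝ) :
    run (pad out L) φ = run L φ := by
  have h1 : pad out L = [⟨out, none, none⟩] ++ (L ++ [⟨out, none, none⟩]) := rfl
  rw [h1, run_append, run_append]
  show (⟨out, none, none⟩ : Step ι).op (run L ((⟨out, none, none⟩ : Step ι).op φ)) = _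
  rw [idle_op, idle_op]

omit [DecidableEq ι] [Fintype ι] in
theorem pad_WF (out : ι) (L : List (Step ι)) (hL : ∀ g ∈ L, g.WF) : ∀ g ∈ pad out L, g.WF := by
  intro g hg
  rcases List.mem_cons.1 hg with rfl | hg
  · exact ⟨fun s k h => by simp at h, fun s k h => by simp at h⟩
  · rcases List.mem_append.1 hg with hg | hg
    · exact hL g hg
    · rw [List.mem_singleton.1 hg]
      exact ⟨fun s k h => by simp at h, fun s k h => by simp at h⟩

omit [Fintype ι] in
theorem Vf_run (out : ι) (P : List (Step ι)) (hP : ∀ g ∈ P, g.WF) (φ : (ι → Bool) → ℝ) :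
    ∀ j ≤ P.length, Vf (fun j => (P.getD j ⟨out, none, none⟩).f)
      (fun j e => if e then (P.getD j ⟨out, none, none⟩).v
          else (P.getD j ⟨out, none, none⟩).u) (2 * j) φ = run (P.take j) φ := by
  intro j
  induction j with
  | zero => intro _; rfl
  | succ j ih =>
    intro hj
    have hj' : j < P.length := by omega
    have e1 : P.getD j ⟨out, none, none⟩ = P[j] := by simp [List.getD, hj']
    have e2 : 2 * (j + 1) = 2 * j + 1 + 1 := by ring
    rw [e2, Vf_succ, Vf_succ, ih (by omega), List.take_succ_eq_append_getElem hj', run_append]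
    exact two_steps _ _ P[j] (hP _ (List.getElem_mem hj')) j (by simp only [e1])
      (by simp only [e1, Bool.false_eq_true, if_false]) (by simp only [e1, if_true]) _

omit [DecidableEq ι] [Fintype ι] in
theorem getD_WF (out : ι) (P : List (Step ι)) (hP : ∀ g ∈ P, g.WF) (j : ℕ) :
    (P.getD j ⟨out, none, none⟩).WF := by
  by_cases hj : j < P.length
  · have e1 : P.getD j ⟨out, none, none⟩ = P[j] := by simp [List.getD, hj]
    rw [e1]; exact hP _ (List.getElem_mem hj)
  · have e1 : P.getD j ⟨out, none, none⟩ = ⟨out, none, none⟩ := by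
      simp [List.getD, List.getElem?_eq_none (not_lt.1 hj)]
    rw [e1]; exact ⟨fun s k h => by simp at h, fun s k h => by simp at h⟩

end Main

/-! ### the theorems -/

theorem upperStmt : UpperStmt := by
  intro ι κ _ _ _ _ dat ca cb anc out L h hL ⟨φ, hφ, hanc, hacc⟩
  set S := L.length + 2 with hS
  set P := pad out L with hP
  set d : Step ι := ⟨out, none, none⟩ with hd
  have hPW : ∀ g ∈ P, g.WF := pad_WF out L hL
  have hlen : P.length = S := by simp [hP, pad, hS]
  set f : ℕ → ι := fun j => (P.getD j d).f with hf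
  set w : ℕ → Bool → Option (ι × ℕ) := fun j e => if e then (P.getD j d).v else (P.getD j d).u
    with hwdef
  have hw : ∀ j < S, ∀ e s k, w j e = some (s, k) → s ≠ f j := by
    intro j _ e s k hh
    have hg := getD_WF out P hPW j
    cases e
    · exact hg.1 s k (by simpa [hwdef] using hh)
    · exact hg.2 s k (by simpa [hwdef] using hh)
  have h0 : ∀ e, w 0 e = none := by
    intro e; cases e <;> simp [hwdef, hP, pad]
  have hlast : f (S - 1) = out := by
    simp only [hf, hP, pad, hS]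
    have : L.length + 2 - 1 = L.length + 1 := rfl
    rw [this]
    simp [List.getD]
  refine ⟨hist h.toC f w φ, ?_, ?_⟩
  · rw [sq_hist h.toC f w hw]
    exact mul_pos (by positivity) hφ
  · unfold ham
    rw [List.length_map, List.length_map, hamW_form anc out L h, sq_hist h.toC f w hw]
    have e1 := En_hist h.toC (by omega) f w hw anc out
      ((W1 anc.length L.length : ℚ) : ℝ) ((W2 anc.length L.length : ℚ) : ℝ) ((W3 : ℚ) : ℝ)
      h0 hlast φ hanc
    rw [e1]
    have e2 : Vf f w (2 * S) φ = run L φ := by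
      have := Vf_run out P hPW φ S (le_of_eq hlen.symm)
      rw [← hlen, List.take_length] at this
      rw [← hlen, this, run_pad]
    rw [e2]
    unfold acc at hacc
    have e3 : ((TT L.length : ℕ) : ℝ) = ((2 * S : ℕ) : ℝ) := rfl
    rw [e3]
    have e4 : 1 / (3 * (((2 * S : ℕ) : ℝ) + 1)) * ((((2 * S : ℕ) : ℝ) + 1) * sq φ) = 1 / 3 * sq φ := by
      field_simp
    rw [e4]
    linarith

theorem lowerStmt : LowerStmt := by
  intro ι κ _ _ _ _ dat ca cb anc out L h hL hrej ψ
  set S := L.length + 2 with hS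
  set P := pad out L with hP
  set d : Step ι := ⟨out, none, none⟩ with hd
  have hPW : ∀ g ∈ P, g.WF := pad_WF out L hL
  have hlen : P.length = S := by simp [hP, pad, hS]
  set f : ℕ → ι := fun j => (P.getD j d).f with hf
  set w : ℕ → Bool → Option (ι × ℕ) := fun j e => if e then (P.getD j d).v else (P.getD j d).u
    with hwdef
  have hw : ∀ j < S, ∀ e s k, w j e = some (s, k) → s ≠ f j := by
    intro j _ e s k hh
    have hg := getD_WF out P hPW j
    cases e
    · exact hg.1 s k (by simpa [hwdef] using hh)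
    · exact hg.2 s k (by simpa [hwdef] using hh)
  have hrej' : ∀ φ : (ι → Bool) → ℝ, AncZero anc φ →
      (∑ x, if x out then Vf f w (2 * S) φ x ^ 2 else 0) ≤ 1 / 3 * sq φ := by
    intro φ hφ
    have e2 : Vf f w (2 * S) φ = run L φ := by
      have := Vf_run out P hPW φ S (le_of_eq hlen.symm)
      rw [← hlen, List.take_length] at this
      rw [← hlen, this, run_pad]
    rw [e2]
    exact hrej φ hφ
  unfold ham
  rw [List.length_map, List.length_map, hamW_form anc out L h]
  have e3 : ((TT L.length : ℕ) : ℝ) = ((2 * S : ℕ) : ℝ) := rfl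
  rw [e3]
  have hW3 : ((W3 : ℚ) : ℝ) = 17 := by norm_num [W3]
  rw [hW3]
  refine En_ge h.toC (by omega) f w hw anc out _ _ ((KK anc.length L.length : ℕ) : ℝ) ?_ ?_ ?_
    hrej' ψ
  · refine le_of_eq ?_
    simp only [W2, TT, hS]
    push_cast
    ring
  · have : (W2 anc.length L.length) * S ≤ KK anc.length L.length := by
      simp only [KK, hS]
      have : W2 anc.length L.length * (L.length + 2) ≤ W2 anc.length L.length * (L.length + 4) :=
        Nat.mul_le_mul_left _ (by omega)
      omega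
    exact_mod_cast this
  · refine le_of_eq ?_
    simp only [W1, TT, hS]
    push_cast
    ring

end Vale.Agent.P370.H220
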