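import Vale.Agent.P370.H220.ClockMain

/-!
# P370, block F1: lower bound for all states, upper bound by the history state
-/

namespace Vale.Agent.P370.H220

open Finset

section
variable {ι κ : Type*} [DecidableEq ι] [DecidableEq κ] [Fintype ι] [Fintype κ]
  {dat : ι → κ} {c : ℕ → Bool → κ} {S : ℕ}

omit [DecidableEq ι] [DecidableEq κ] [Fintype ι] [Fintype κ] in
theorem wmap_ne (h : LayC dat c S) {j : ℕ} (hj : j < S) (e : Bool) (w : Option (ι × ℕ)) :
    ∀ s l, wmap dat w = some (s, l) → s ≠ c j e := by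
  intro s l hh
  rcases w with _ | ⟨s', k⟩
  · simp [wmap] at hh
  · simp only [wmap, Option.map_some, Option.some.injEq, Prod.mk.injEq] at hh
    rw [← hh.1]
    exact (h.c_dat j e s' hj).symm

/-- lower bound for all states -/
theorem En_ge (h : LayC dat c S) (hS : 0 < S) (f : ℕ → ι)
    (w : ℕ → Bool → Option (ι × ℕ))
    (hw : ∀ j < S, ∀ e s k, w j e = some (s, k) → s ≠ f j) (anc : List ι) (out : ι)
    (L1 L2 K : ℝ)
    (hL2 : ((2 * S : ℕ) + 1 : ℝ) ^ 2 * (16 * (17 * anc.length + 1) + 1) ≤ L2)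
    (hK : L2 * S ≤ K) (hL1 : K + 12 * ((2 * S : ℕ) + 1) * K ^ 2 + 1 ≤ L1)
    (hrej : ∀ φ : (ι → Bool) → ℝ, AncZero anc φ →
      (∑ x, if x out then Vf f w (2 * S) φ x ^ 2 else 0) ≤ 1 / 3 * sq φ)
    (ψ : (κ → Bool) → ℝ) :
    1 / (2 * ((2 * S : ℕ) + 1)) * sq ψ ≤ En dat c S f w anc out L1 L2 17 ψ := by
  classical
  set y : (κ → Bool) → ℝ := fun z => if Leg h f z then ψ z else 0 with hy
  set r : (κ → Bool) → ℝ := fun z => if Leg h f z then 0 else ψ z with hr
  have hψ : ψ = y + r := by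
    funext z; simp only [hy, hr, Pi.add_apply]; split_ifs <;> ring
  have hyl : ∀ z, ¬ Leg h f z → y z = 0 := fun z hz => by simp only [hy, if_neg hz]
  have hsq : sq ψ = sq y + sq r := by
    unfold sq
    rw [← sum_add_distrib]
    refine sum_congr rfl fun z _ => ?_
    simp only [hy, hr]; split_ifs <;> ring
  have hleg := En_legal_ge h hS f w hw anc out L1 L2 hL2 hrej y hyl
  set T : ℕ := 2 * S with hTdef
  have hT1 : (0 : ℝ) < (T : ℝ) + 1 := by positivity
  have hL2pos : 0 < L2 := lt_of_lt_of_le (by positivity) hL2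
  have hS1 : (1 : ℝ) ≤ S := by exact_mod_cast hS
  have hKpos : 0 < K := lt_of_lt_of_le (by positivity) hK
  have hL1pos : 0 ≤ L1 := le_trans (by positivity) hL1
  have hy0 := sq_nonneg' y
  have hr0 := sq_nonneg' r
  -- diagonal part
  have hdiag : ∑ z, (L1 * DD dat c f S z + dg dat c S anc out L2 17 z) * y z ^ 2 + L1 * sq r ≤
      ∑ z, (L1 * DD dat c f S z + dg dat c S anc out L2 17 z) * ψ z ^ 2 := by
    unfold sq
    rw [mul_sum, ← sum_add_distrib]
    refine sum_le_sum fun z _ => ?_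
    have a := dg_nonneg dat c S anc out hL2pos.le (by norm_num : (0 : ℝ) ≤ 17) z
    simp only [hy, hr]
    split_ifs with hz
    · exact le_of_eq (by ring)
    · have b : 1 ≤ DD dat c f S z := (DD_cases h f z).resolve_right hz
      have b2 : L1 * 1 ≤ L1 * DD dat c f S z := mul_le_mul_of_nonneg_left b hL1pos
      have b3 : L1 * ψ z ^ 2 ≤ (L1 * DD dat c f S z + dg dat c S anc out L2 17 z) * ψ z ^ 2 :=
        mul_le_mul_of_nonneg_right (by linarith) (sq_nonneg _)
      linarith
  -- transfers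
  set C : ℝ := (12 * ((T : ℝ) + 1) * (L2 * S))⁻¹ with hC
  have hden : 0 < 12 * ((T : ℝ) + 1) * (L2 * S) := by positivity
  have hCpos : 0 < C := inv_pos.2 hden
  have htr : ∑ j ∈ range S, ∑ e : Bool, trf (c j e) (wmap dat (w j e)) ψ ψ ≤
      ∑ j ∈ range S, ∑ e : Bool, trf (c j e) (wmap dat (w j e)) y y +
      2 * S * (C * sq y + (C⁻¹ + 1) * sq r) := by
    have e1 : ∀ j ∈ range S, ∀ e : Bool, trf (c j e) (wmap dat (w j e)) ψ ψ ≤
        trf (c j e) (wmap dat (w j e)) y y + (C * sq y + (C⁻¹ + 1) * sq r) := by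
      intro j hj e
      have hne := wmap_ne h (mem_range.1 hj) e (w j e)
      have a1 := trf_le (c j e) (wmap dat (w j e)) y r C hCpos
      have a2 := trf_le (c j e) (wmap dat (w j e)) r r 1 one_pos
      have a3 := trf_comm (c j e) (wmap dat (w j e)) hne r y
      rw [hψ, trf_add_left, trf_add_right, trf_add_right, a3]
      rw [inv_one] at a2
      linarith
    calc ∑ j ∈ range S, ∑ e : Bool, trf (c j e) (wmap dat (w j e)) ψ ψ
        ≤ ∑ j ∈ range S, ∑ e : Bool, (trf (c j e) (wmap dat (w j e)) y y +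
            (C * sq y + (C⁻¹ + 1) * sq r)) :=
          sum_le_sum fun j hj => sum_le_sum fun e _ => e1 j hj e
      _ = _ := by
          simp only [sum_add_distrib, sum_const, card_range, Finset.card_univ, Fintype.card_bool,
            nsmul_eq_mul]
          push_cast; ring
  have hEn : En dat c S f w anc out L1 L2 17 y + L1 * sq r -
      L2 * S * (C * sq y + (C⁻¹ + 1) * sq r) ≤ En dat c S f w anc out L1 L2 17 ψ := by
    unfold En
    have e1 := mul_le_mul_of_nonneg_left htr (by positivity : 0 ≤ L2 / 2)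
    have e2 : L2 / 2 * (∑ j ∈ range S, ∑ e : Bool, trf (c j e) (wmap dat (w j e)) y y +
      2 * S * (C * sq y + (C⁻¹ + 1) * sq r)) =
      L2 / 2 * ∑ j ∈ range S, ∑ e : Bool, trf (c j e) (wmap dat (w j e)) y y +
        L2 * S * (C * sq y + (C⁻¹ + 1) * sq r) := by ring
    rw [e2] at e1
    linarith
  have hc1 : L2 * S * C = 1 / (12 * ((T : ℝ) + 1)) := by
    rw [hC]; field_simp
  have hc2 : L2 * S * C⁻¹ = 12 * ((T : ℝ) + 1) * (L2 * S) ^ 2 := by
    rw [hC, inv_inv]; ring
  have hc3 : L2 * S * (C * sq y + (C⁻¹ + 1) * sq r) =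
      1 / (12 * ((T : ℝ) + 1)) * sq y + (12 * ((T : ℝ) + 1) * (L2 * S) ^ 2 + L2 * S) * sq r := by
    linear_combination sq y * hc1 + sq r * hc2
  rw [hc3] at hEn
  have hc4 : 12 * ((T : ℝ) + 1) * (L2 * S) ^ 2 ≤ 12 * ((T : ℝ) + 1) * K ^ 2 := by
    have : (L2 * S) ^ 2 ≤ K ^ 2 := pow_le_pow_left₀ (by positivity) hK 2
    exact mul_le_mul_of_nonneg_left this (by positivity)
  have hc5 : sq r ≤ (L1 - (12 * ((T : ℝ) + 1) * (L2 * S) ^ 2 + L2 * S)) * sq r := by
    have : 1 ≤ L1 - (12 * ((T : ℝ) + 1) * (L2 * S) ^ 2 + L2 * S) := by linarith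
    nlinarith
  have hc6 : 1 / (2 * ((T : ℝ) + 1)) ≤ 75 / 128 / ((T : ℝ) + 1) - 1 / (12 * ((T : ℝ) + 1)) := by
    have : 75 / 128 / ((T : ℝ) + 1) - 1 / (12 * ((T : ℝ) + 1)) - 1 / (2 * ((T : ℝ) + 1)) =
        (75 / 128 - 1 / 12 - 1 / 2) / ((T : ℝ) + 1) := by field_simp
    have h2 : 0 ≤ (75 / 128 - 1 / 12 - 1 / 2 : ℝ) / ((T : ℝ) + 1) := by positivity
    linarith
  have hc7 : 1 / (2 * ((T : ℝ) + 1)) ≤ 1 := by
    rw [div_le_one (by positivity)]
    have : (0 : ℝ) ≤ T := Nat.cast_nonneg T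
    linarith
  have hc8 := mul_le_mul_of_nonneg_right hc6 hy0
  have hc9 := mul_le_mul_of_nonneg_right hc7 hr0
  rw [hsq]
  linarith

/-- the history state -/
noncomputable def hist (h : LayC dat c S) (f : ℕ → ι) (w : ℕ → Bool → Option (ι × ℕ))
    (φ : (ι → Bool) → ℝ) : (κ → Bool) → ℝ := by
  classical
  exact fun z => ∑ t ∈ range (2 * S + 1),
    if z = leg h f t (fun i => z (dat i)) then Vf f w t φ (fun i => z (dat i)) else 0

theorem hist_leg (h : LayC dat c S) (f : ℕ → ι) (w : ℕ → Bool → Option (ι × ℕ))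
    (φ : (ι → Bool) → ℝ) {t : ℕ} (ht : t ≤ 2 * S) (x : ι → Bool) :
    hist h f w φ (leg h f t x) = Vf f w t φ x := by
  classical
  unfold hist
  have hx : (fun i => leg h f t x (dat i)) = x := by funext i; exact leg_dat h f t x i
  rw [hx]
  rw [sum_eq_single t]
  · rw [if_pos rfl]
  · intro t' ht' hne
    rw [if_neg]
    intro hh
    exact hne (leg_inj h f ht (Nat.lt_succ_iff.1 (mem_range.1 ht')) hh).1.symm
  · intro hh; exact absurd (mem_range.2 (by omega)) hh

theorem hist_illegal (h : LayC dat c S) (f : ℕ → ι) (w : ℕ → Bool → Option (ι × ℕ))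
    (φ : (ι → Bool) → ℝ) (z : κ → Bool) (hz : ¬ Leg h f z) : hist h f w φ z = 0 := by
  classical
  unfold hist
  refine sum_eq_zero fun t ht => ?_
  rw [if_neg]
  intro hh
  exact hz ⟨t, Nat.lt_succ_iff.1 (mem_range.1 ht), hh⟩

theorem sq_hist (h : LayC dat c S) (f : ℕ → ι) (w : ℕ → Bool → Option (ι × ℕ))
    (hw : ∀ j < S, ∀ e s k, w j e = some (s, k) → s ≠ f j) (φ : (ι → Bool) → ℝ) :
    sq (hist h f w φ) = ((2 * S : ℕ) + 1) * sq φ := by
  have hwf : ∀ t < 2 * S, WFt f w t := fun t ht e s k hk => hw (t / 2) (by omega) e s k hk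
  have e1 : sq (hist h f w φ) = ∑ t ∈ range (2 * S + 1), sq (Vf f w t φ) := by
    unfold sq
    rw [sum_legal h f _ fun z hz => by rw [hist_illegal h f w φ z hz]; ring]
    exact sum_congr rfl fun t ht => sum_congr rfl fun x _ => by
      rw [hist_leg h f w φ (Nat.lt_succ_iff.1 (mem_range.1 ht)) x]
  rw [e1, sum_congr rfl fun t ht => sq_Vf (t := t)
    (fun s hs => hwf s (by have := mem_range.1 ht; omega)) φ]
  rw [sum_const, card_range, nsmul_eq_mul]
  push_cast; ring

/-- the energy of the history state of an initial state with all ancillas `false`, when the first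
step is idle and the last step is controlled by the output site -/
theorem En_hist (h : LayC dat c S) (hS : 2 ≤ S) (f : ℕ → ι)
    (w : ℕ → Bool → Option (ι × ℕ))
    (hw : ∀ j < S, ∀ e s k, w j e = some (s, k) → s ≠ f j) (anc : List ι) (out : ι)
    (L1 L2 L3 : ℝ) (h0 : ∀ e, w 0 e = none) (hlast : f (S - 1) = out)
    (φ : (ι → Bool) → ℝ) (hφ : AncZero anc φ) :
    En dat c S f w anc out L1 L2 L3 (hist h f w φ) =
      sq φ - ∑ x, if x out then Vf f w (2 * S) φ x ^ 2 else 0 := by
  have hwf : ∀ t < 2 * S, WFt f w t := fun t ht e s k hk => hw (t / 2) (by omega) e s k hk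
  rw [En_legal h (by omega) f w hw anc out L1 L2 L3 _ (hist_illegal h f w φ)]
  have e1 : ∑ t ∈ range (2 * S), sq (Vi f w (t + 1) (fun x => hist h f w φ (leg h f (t + 1) x)) -
        Vi f w t (fun x => hist h f w φ (leg h f t x))) = 0 := by
    refine sum_eq_zero fun t ht => ?_
    have ht' := mem_range.1 ht
    have a1 : (fun x => hist h f w φ (leg h f (t + 1) x)) = Wt f w t (Vf f w t φ) := by
      funext x; rw [hist_leg h f w φ (by omega)]; rfl
    have a2 : (fun x => hist h f w φ (leg h f t x)) = Vf f w t φ := by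
      funext x; rw [hist_leg h f w φ (by omega)]
    rw [a1, a2, Vi_succ, Wt_Wt (hwf t ht'), sub_self]
    unfold sq
    simp
  rw [e1, mul_zero, zero_add]
  -- the penalties
  have e2 : ∀ t ∈ range (2 * S + 1), ∑ x,
        (L3 * ((if tau f 0 false x ≤ t then 0 else 1) * nviol anc x) +
        (if tau f (S - 1) true x ≤ t then 1 else 0) * (1 - nb (x out))) *
          hist h f w φ (leg h f t x) ^ 2 =
      if t = 2 * S then sq φ - ∑ x, if x out then Vf f w (2 * S) φ x ^ 2 else 0 else 0 := by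
    intro t ht
    have ht' := Nat.lt_succ_iff.1 (mem_range.1 ht)
    -- ancilla part vanishes
    have a1 : ∀ x, (if tau f 0 false x ≤ t then (0 : ℝ) else 1) * nviol anc x *
        hist h f w φ (leg h f t x) ^ 2 = 0 := by
      intro x
      by_cases h1 : tau f 0 false x ≤ t
      · rw [if_pos h1]; ring
      by_cases h2 : ∃ i ∈ anc, x i = true
      · have h3 : t ≤ 1 := by have := tau_le f 0 false x; omega
        have h4 : Vf f w t φ x = φ x := by
          interval_cases t
          · rfl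
          · show Wt f w 0 φ x = φ x
            unfold Wt
            rw [h0]; rfl
        rw [hist_leg h f w φ ht' x, h4, hφ x h2]; ring
      · rw [nviol_zero anc x h2]; ring
    have a2 : ∀ x, (L3 * ((if tau f 0 false x ≤ t then 0 else 1) * nviol anc x) +
        (if tau f (S - 1) true x ≤ t then 1 else 0) * (1 - nb (x out))) *
          hist h f w φ (leg h f t x) ^ 2 =
        (if tau f (S - 1) true x ≤ t then 1 else 0) * (1 - nb (x out)) *
          Vf f w t φ x ^ 2 := by
      intro x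
      have := a1 x
      rw [hist_leg h f w φ ht' x] at this ⊢
      linear_combination L3 * this
    rw [sum_congr rfl fun x _ => a2 x]
    by_cases h1 : t = 2 * S
    · rw [if_pos h1, h1, ← sq_Vf hwf φ]
      unfold sq
      rw [← sum_sub_distrib]
      refine sum_congr rfl fun x _ => ?_
      have := tau_le f (S - 1) true x
      rw [if_pos (by omega)]
      unfold nb; split_ifs <;> ring
    · rw [if_neg h1]
      refine sum_eq_zero fun x _ => ?_
      by_cases h2 : tau f (S - 1) true x ≤ t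
      · have h3 : x out = true := by
          by_contra h4
          have h5 : tau f (S - 1) true x = 2 * (S - 1) + 2 := by
            unfold tau; rw [if_neg]; rw [hlast]; exact h4
          omega
        rw [h3]; simp [nb]
      · rw [if_neg h2]; ring
  rw [sum_congr rfl e2, sum_ite_eq' (range (2 * S + 1)) (2 * S), if_pos (mem_range.2 (by omega))]

end

end Vale.Agent.P370.H220
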