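import Mathlib

/-!
# P370, line Q, block F1: definitions and statements for the branching clock

Finite-dimensional conventions (all spaces real).

* a configuration of a finite set `κ` of sites is `κ → Bool`; a vector is `(κ → Bool) → ℝ`;
* `Ax.op a i` is the identity, Pauli `X` or Pauli `Z` at site `i`;
* `Term κ` is `q * cos (k π / 8) * (a at i) (b at j)`, `form L` the quadratic form of a list of
  terms, `sq` the squared norm;
* `Step ι` is one step of a real circuit: two reflections `u`, `v` (`none` = identity,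
  `some (s, k)` = `cos (kπ/8) Z + sin (kπ/8) X` at `s`), applied in the order `u`, then `v` on the
  data configurations with `x f = false`, and in the order `v`, then `u` on those with
  `x f = true`.
* `ham` is the list of terms of the clock Hamiltonian: sites = data sites and two clock bits
  per step.

`UpperStmt` / `LowerStmt` are what `Clock.lean` proves.
-/

namespace Vale.Agent.P370.H220

/-- identity, Pauli `X`, Pauli `Z` -/
inductive Ax
  | I
  | X
  | Z
  deriving DecidableEq

/-- flip one site -/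
def flp {κ : Type*} [DecidableEq κ] (i : κ) (z : κ → Bool) : κ → Bool :=
  Function.update z i (!z i)

/-- the eigenvalue of `Z` -/
def sg (b : Bool) : ℝ := if b then -1 else 1

/-- identity, `X` or `Z` at site `i` -/
def Ax.op {κ : Type*} [DecidableEq κ] (a : Ax) (i : κ) (ψ : (κ → Bool) → ℝ) :
    (κ → Bool) → ℝ :=
  match a with
  | .I => ψ
  | .X => fun z => ψ (flp i z)
  | .Z => fun z => sg (z i) * ψ z

/-- the squared norm -/
def sq {α : Type*} [Fintype α] (ψ : α → ℝ) : ℝ := ∑ z, ψ z ^ 2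

/-- the term `q * cos (k π / 8) * (a at i) * (b at j)`; in all our lists `i ≠ j` or one of
`a`, `b` is `I`. -/
structure Term (κ : Type*) where
  q : ℚ
  k : ℕ
  i : κ
  a : Ax
  j : κ
  b : Ax

/-- its coefficient -/
noncomputable def Term.coef {κ : Type*} (t : Term κ) : ℝ := (t.q : ℝ) * Real.cos (t.k * Real.pi / 8)

/-- its quadratic form -/
noncomputable def Term.form {κ : Type*} [DecidableEq κ] [Fintype κ] (t : Term κ)
    (ψ : (κ → Bool) → ℝ) : ℝ :=
  t.coef * ∑ z, ψ z * (t.a.op t.i (t.b.op t.j ψ)) z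

/-- the quadratic form of a list of terms -/
noncomputable def form {κ : Type*} [DecidableEq κ] [Fintype κ] (L : List (Term κ))
    (ψ : (κ → Bool) → ℝ) : ℝ :=
  (L.map fun t => t.form ψ).sum

/-- relabelling of the sites -/
def Term.map {κ κ' : Type*} (e : κ → κ') (t : Term κ) : Term κ' :=
  ⟨t.q, t.k, e t.i, t.a, e t.j, t.b⟩

/-- a step of a real circuit (see the header) -/
structure Step (ι : Type*) where
  f : ι
  u : Option (ι × ℕ)
  v : Option (ι × ℕ)

/-- the reflection `cos (kπ/8) Z + sin (kπ/8) X` at `s`; `none` is the identity -/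
noncomputable def rop {ι : Type*} [DecidableEq ι] (w : Option (ι × ℕ)) (φ : (ι → Bool) → ℝ) :
    (ι → Bool) → ℝ :=
  match w with
  | none => φ
  | some (s, k) => fun x =>
      Real.cos (k * Real.pi / 8) * (sg (x s) * φ x) + Real.sin (k * Real.pi / 8) * φ (flp s x)

/-- the action of a step -/
noncomputable def Step.op {ι : Type*} [DecidableEq ι] (g : Step ι) (φ : (ι → Bool) → ℝ) :
    (ι → Bool) → ℝ :=
  fun x => if x g.f then rop g.u (rop g.v φ) x else rop g.v (rop g.u φ) x

/-- the action of a circuit (first step of the list first) -/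
noncomputable def run {ι : Type*} [DecidableEq ι] (L : List (Step ι)) (φ : (ι → Bool) → ℝ) :
    (ι → Bool) → ℝ :=
  L.foldl (fun φ g => g.op φ) φ

/-- the reflections of a step do not act on its control site -/
def Step.WF {ι : Type*} (g : Step ι) : Prop :=
  (∀ s k, g.u = some (s, k) → s ≠ g.f) ∧ (∀ s k, g.v = some (s, k) → s ≠ g.f)

/-- probability (times the squared norm) that the output site reads `true` -/
noncomputable def acc {ι : Type*} [Fintype ι] [DecidableEq ι] (out : ι) (φ : (ι → Bool) → ℝ) : ℝ :=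
  ∑ x, if x out then φ x ^ 2 else 0

/-- initial states: all ancillas read `false` -/
def AncZero {ι : Type*} (anc : List ι) (φ : (ι → Bool) → ℝ) : Prop :=
  ∀ x, (∃ i ∈ anc, x i = true) → φ x = 0

/-! ### the list of terms -/

section Lists
variable {κ : Type*}

/-- `c * 1` (at an arbitrary site) -/
def tI (c : ℚ) (i : κ) : Term κ := ⟨c, 0, i, .I, i, .I⟩
/-- `c * Z_i` -/
def tZ (c : ℚ) (i : κ) : Term κ := ⟨c, 0, i, .Z, i, .I⟩
/-- `c * Z_i Z_j` -/
def tZZ (c : ℚ) (i j : κ) : Term κ := ⟨c, 0, i, .Z, j, .Z⟩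

/-- `c * (1 + σ Z_i) (1 + τ Z_j)`, `σ, τ = ±1` -/
def tPP (c σ τ : ℚ) (i j : κ) : List (Term κ) :=
  [tI c i, tZ (c * σ) i, tZ (c * τ) j, tZZ (c * (σ * τ)) i j]

/-- `-c * X_k (reflection w)` : the transfer term of clock bit `k` -/
def tFlip (c : ℚ) (k : κ) (w : Option (κ × ℕ)) : List (Term κ) :=
  match w with
  | none => [⟨-c, 0, k, .X, k, .I⟩]
  | some (s, l) => [⟨-c, l, k, .X, s, .Z⟩, ⟨-c, l + 12, k, .X, s, .X⟩]

/-- the terms of step number `j` (clock bits `ca j`, `cb j`): branch penalty and transfers -/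
def stepTerms (L1 L2 : ℚ) (ca cb : ℕ → κ) (j : ℕ) (g : Step κ) : List (Term κ) :=
  [tI (L1 / 2) g.f, tZZ (-(L1 / 2)) (ca j) (cb j), tZZ (L1 / 2) (ca j) g.f,
    tZZ (-(L1 / 2)) (cb j) g.f] ++ tFlip (L2 / 2) (ca j) g.u ++ tFlip (L2 / 2) (cb j) g.v

/-- the ordering terms between the steps `j` and `j + 1`: `(1 - c) c'` for `c` a bit of step `j`
and `c'` a bit of step `j + 1` -/
def orderTerms (L1 : ℚ) (ca cb : ℕ → κ) (j : ℕ) : List (Term κ) :=
  tPP (L1 / 4) 1 (-1) (ca j) (ca (j + 1)) ++ tPP (L1 / 4) 1 (-1) (ca j) (cb (j + 1)) ++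
  tPP (L1 / 4) 1 (-1) (cb j) (ca (j + 1)) ++ tPP (L1 / 4) 1 (-1) (cb j) (cb (j + 1))

/-- the terms of a list of steps, the first one having number `j`, including the ordering terms
inside the list -/
def stepsTerms (L1 L2 : ℚ) (ca cb : ℕ → κ) : ℕ → List (Step κ) → List (Term κ)
  | _, [] => []
  | j, [g] => stepTerms L1 L2 ca cb j g
  | j, g :: g' :: L =>
      stepTerms L1 L2 ca cb j g ++ orderTerms L1 ca cb j ++ stepsTerms L1 L2 ca cb (j + 1) (g' :: L)

/-- the padded circuit: an idle step first and an idle step (with control `out`) last -/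
def pad (out : κ) (L : List (Step κ)) : List (Step κ) :=
  ⟨out, none, none⟩ :: (L ++ [⟨out, none, none⟩])

/-- the clock Hamiltonian with weights `L1`, `L2`, `L3` for the circuit `L` -/
def hamW (L1 L2 L3 : ℚ) (ca cb : ℕ → κ) (anc : List κ) (out : κ) (L : List (Step κ)) :
    List (Term κ) :=
  stepsTerms L1 L2 ca cb 0 (pad out L) ++
  (tI L2 out :: tPP (-(L2 / 8)) 1 1 (ca 0) (cb 0)) ++
  tPP (-(L2 / 8)) (-1) (-1) (ca (L.length + 1)) (cb (L.length + 1)) ++
  (anc.flatMap fun i => tPP (L3 / 4) 1 (-1) (ca 0) i) ++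
  tPP (1 / 4) (-1) 1 (cb (L.length + 1)) out

/-- number of time steps of the clock: two per step of the padded circuit -/
def TT (len : ℕ) : ℕ := 2 * (len + 2)

/-- the explicit weights: `A` ancillas, `len` steps -/
def W3 : ℕ := 17
/-- weight of the propagation terms -/
def W2 (A len : ℕ) : ℕ := (TT len + 1) ^ 2 * (16 * (17 * A + 1) + 1)
/-- norm bound -/
def KK (A len : ℕ) : ℕ := W2 A len * (len + 4) + 17 * A + 1
/-- weight of the clock terms -/
def W1 (A len : ℕ) : ℕ := KK A len + 12 * (TT len + 1) * KK A len ^ 2 + 1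

/-- the clock Hamiltonian with explicit weights -/
def ham (ca cb : ℕ → κ) (anc : List κ) (out : κ) (L : List (Step κ)) : List (Term κ) :=
  hamW (W1 anc.length L.length) (W2 anc.length L.length) W3 ca cb anc out L

end Lists

/-! ### statements -/

/-- the situation: data sites `dat : ι → κ`, clock bits `ca`, `cb`; all sites of `κ` are used
exactly once. -/
structure Lay {ι κ : Type*} (dat : ι → κ) (ca cb : ℕ → κ) (S : ℕ) : Prop where
  dat_inj : Function.Injective dat
  ca_inj : ∀ j k, j < S → k < S → ca j = ca k → j = k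
  cb_inj : ∀ j k, j < S → k < S → cb j = cb k → j = k
  ca_cb : ∀ j k, j < S → k < S → ca j ≠ cb k
  ca_dat : ∀ j i, j < S → ca j ≠ dat i
  cb_dat : ∀ j i, j < S → cb j ≠ dat i
  surj : ∀ z : κ, (∃ i, z = dat i) ∨ (∃ j < S, z = ca j) ∨ (∃ j < S, z = cb j)

/-- relabelling of the sites of a step -/
def Step.map {ι κ : Type*} (e : ι → κ) (g : Step ι) : Step κ :=
  ⟨e g.f, g.u.map (fun p => (e p.1, p.2)), g.v.map (fun p => (e p.1, p.2))⟩

/-- completeness: an accepted initial state gives a state of small energy -/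
def UpperStmt : Prop :=
  ∀ (ι κ : Type) [Fintype ι] [DecidableEq ι] [Fintype κ] [DecidableEq κ]
    (dat : ι → κ) (ca cb : ℕ → κ) (anc : List ι) (out : ι) (L : List (Step ι)),
    Lay dat ca cb (L.length + 2) → (∀ g ∈ L, g.WF) →
    (∃ φ : (ι → Bool) → ℝ, 0 < sq φ ∧ AncZero anc φ ∧ 2 / 3 * sq φ ≤ acc out (run L φ)) →
    ∃ ψ : (κ → Bool) → ℝ, 0 < sq ψ ∧
      form (ham ca cb (anc.map dat) (dat out) (L.map (Step.map dat))) ψ ≤
        1 / (3 * (TT L.length + 1)) * sq ψ

/-- soundness: if every initial state is rejected, all energies are large -/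
def LowerStmt : Prop :=
  ∀ (ι κ : Type) [Fintype ι] [DecidableEq ι] [Fintype κ] [DecidableEq κ]
    (dat : ι → κ) (ca cb : ℕ → κ) (anc : List ι) (out : ι) (L : List (Step ι)),
    Lay dat ca cb (L.length + 2) → (∀ g ∈ L, g.WF) →
    (∀ φ : (ι → Bool) → ℝ, AncZero anc φ → acc out (run L φ) ≤ 1 / 3 * sq φ) →
    ∀ ψ : (κ → Bool) → ℝ,
      1 / (2 * (TT L.length + 1)) * sq ψ ≤
        form (ham ca cb (anc.map dat) (dat out) (L.map (Step.map dat))) ψ

end Vale.Agent.P370.H220
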