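import Vale.Agent.P370.H220.ClockSum

/-!
# P370, block F1: the energy functional, legal part, history decomposition
-/

namespace Vale.Agent.P370.H220

open Finset

/-! ### the transfer operators `Wt` -/

section Wt
variable {ι : Type*} [DecidableEq ι] {f : ℕ → ι} {w : ℕ → Bool → Option (ι × ℕ)}

theorem bit_flp {s : ι} {t : ℕ} (hs : s ≠ f (t / 2)) (x : ι → Bool) :
    bit f t (flp s x) = bit f t x := by
  unfold bit; rw [flp_ne (Ne.symm hs)]

/-- well-formedness at time `t` -/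
def WFt (f : ℕ → ι) (w : ℕ → Bool → Option (ι × ℕ)) (t : ℕ) : Prop :=
  ∀ e s k, w (t / 2) e = some (s, k) → s ≠ f (t / 2)

theorem Wt_add (t : ℕ) (φ χ : (ι → Bool) → ℝ) : Wt f w t (φ + χ) = Wt f w t φ + Wt f w t χ := by
  funext x; simp only [Wt, rop_add, Pi.add_apply]

theorem Wt_smul (t : ℕ) (a : ℝ) (φ : (ι → Bool) → ℝ) : Wt f w t (a • φ) = a • Wt f w t φ := by
  funext x; simp only [Wt, rop_smul, Pi.smul_apply]

/-- as a linear map -/
noncomputable def WL (f : ℕ → ι) (w : ℕ → Bool → Option (ι × ℕ)) (t : ℕ) :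
    ((ι → Bool) → ℝ) →ₗ[ℝ] ((ι → Bool) → ℝ) where
  toFun := Wt f w t
  map_add' := Wt_add t
  map_smul' := Wt_smul t

theorem WL_apply (t : ℕ) (φ : (ι → Bool) → ℝ) : WL f w t φ = Wt f w t φ := rfl

/-- `Wt` in terms of indicator functions -/
theorem Wt_eq_sum (t : ℕ) (φ : (ι → Bool) → ℝ) (x : ι → Bool) :
    Wt f w t φ x = ∑ e : Bool, (if bit f t x = e then 1 else 0) * rop (w (t / 2) e) φ x := by
  unfold Wt
  rw [Fintype.sum_bool]
  cases h : bit f t x <;> simp

theorem Wt_Wt {t : ℕ} (ht : WFt f w t) (φ : (ι → Bool) → ℝ) : Wt f w t (Wt f w t φ) = φ := by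
  funext x
  have h1 : Wt f w t (Wt f w t φ) x = rop (w (t / 2) (bit f t x)) (rop (w (t / 2) (bit f t x)) φ) x := by
    unfold Wt
    refine rop_congr _ _ _ _ rfl fun s k hk => ?_
    have hs := ht _ s k hk
    rw [bit_flp hs]
  rw [h1, rop_rop]

theorem ip_Wt [Fintype ι] {t : ℕ} (ht : WFt f w t) (φ χ : (ι → Bool) → ℝ) :
    ∑ x, φ x * Wt f w t χ x = ∑ x, Wt f w t φ x * χ x := by
  simp only [Wt_eq_sum, mul_sum, sum_mul]
  rw [sum_comm, sum_comm (f := fun x e => (if bit f t x = e then (1 : ℝ) else 0) *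
    rop (w (t / 2) e) φ x * χ x)]
  refine sum_congr rfl fun e _ => ?_
  have h1 : ∀ x, φ x * ((if bit f t x = e then (1 : ℝ) else 0) * rop (w (t / 2) e) χ x) =
      ((if bit f t x = e then (1 : ℝ) else 0) * φ x) * rop (w (t / 2) e) χ x := fun x => by ring
  simp only [h1]
  rw [ip_rop (w (t / 2) e) (fun x => (if bit f t x = e then (1 : ℝ) else 0) * φ x) χ]
  refine sum_congr rfl fun x _ => ?_
  rw [rop_mul (w (t / 2) e) (fun x => (if bit f t x = e then (1 : ℝ) else 0)) φ]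
  intro s k hk y
  rw [bit_flp (ht e s k hk)]

theorem sq_Wt [Fintype ι] {t : ℕ} (ht : WFt f w t) (φ : (ι → Bool) → ℝ) :
    sq (Wt f w t φ) = sq φ := by
  have h := ip_Wt ht (Wt f w t φ) φ
  rw [Wt_Wt ht] at h
  unfold sq
  calc ∑ z, Wt f w t φ z ^ 2 = ∑ z, Wt f w t φ z * Wt f w t φ z :=
        sum_congr rfl fun _ _ => pow_two _
    _ = ∑ z, φ z * φ z := h
    _ = ∑ z, φ z ^ 2 := sum_congr rfl fun _ _ => (pow_two _).symm

/-- forward evolution from time `0` to time `t` -/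
noncomputable def Vf (f : ℕ → ι) (w : ℕ → Bool → Option (ι × ℕ)) :
    ℕ → ((ι → Bool) → ℝ) →ₗ[ℝ] ((ι → Bool) → ℝ)
  | 0 => LinearMap.id
  | t + 1 => WL f w t ∘ₗ Vf f w t

/-- backward evolution from time `t` to time `0` -/
noncomputable def Vi (f : ℕ → ι) (w : ℕ → Bool → Option (ι × ℕ)) :
    ℕ → ((ι → Bool) → ℝ) →ₗ[ℝ] ((ι → Bool) → ℝ)
  | 0 => LinearMap.id
  | t + 1 => Vi f w t ∘ₗ WL f w t

theorem Vf_succ (t : ℕ) (φ : (ι → Bool) → ℝ) : Vf f w (t + 1) φ = Wt f w t (Vf f w t φ) := rfl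
theorem Vi_succ (t : ℕ) (φ : (ι → Bool) → ℝ) : Vi f w (t + 1) φ = Vi f w t (Wt f w t φ) := rfl
theorem Vf_zero (φ : (ι → Bool) → ℝ) : Vf f w 0 φ = φ := rfl
theorem Vi_zero (φ : (ι → Bool) → ℝ) : Vi f w 0 φ = φ := rfl

theorem Vf_Vi {t : ℕ} (ht : ∀ s < t, WFt f w s) (φ : (ι → Bool) → ℝ) :
    Vf f w t (Vi f w t φ) = φ := by
  induction t generalizing φ with
  | zero => rfl
  | succ t ih =>
    rw [Vf_succ, Vi_succ, ih (fun s hs => ht s (by omega)), Wt_Wt (ht t (by omega))]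

theorem sq_Vf [Fintype ι] {t : ℕ} (ht : ∀ s < t, WFt f w s) (φ : (ι → Bool) → ℝ) :
    sq (Vf f w t φ) = sq φ := by
  induction t generalizing φ with
  | zero => rfl
  | succ t ih =>
    rw [Vf_succ, sq_Wt (ht t (by omega)), ih fun s hs => ht s (by omega)]

theorem sq_Vi [Fintype ι] {t : ℕ} (ht : ∀ s < t, WFt f w s) (φ : (ι → Bool) → ℝ) :
    sq (Vi f w t φ) = sq φ := by
  induction t generalizing φ with
  | zero => rfl
  | succ t ih =>
    rw [Vi_succ, ih (fun s hs => ht s (by omega)), sq_Wt (ht t (by omega))]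

/-- the propagation energy of a sequence of states in terms of the pulled back states -/
theorem prop_eq [Fintype ι] {T : ℕ} (hT : ∀ s < T, WFt f w s) (φ : ℕ → (ι → Bool) → ℝ) {t : ℕ}
    (ht : t < T) :
    sq (φ t) + sq (φ (t + 1)) - (∑ x, φ t x * Wt f w t (φ (t + 1)) x +
      ∑ x, φ (t + 1) x * Wt f w t (φ t) x) =
    sq (Vi f w (t + 1) (φ (t + 1)) - Vi f w t (φ t)) := by
  have hwf := hT t ht
  have h1 : Vi f w (t + 1) (φ (t + 1)) - Vi f w t (φ t) =
      Vi f w (t + 1) (φ (t + 1) - Wt f w t (φ t)) := by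
    rw [map_sub, Vi_succ t (Wt f w t (φ t)), Wt_Wt hwf]
  rw [h1, sq_Vi (t := t + 1) fun s hs => hT s (by omega)]
  have h2 : sq (φ t) = sq (Wt f w t (φ t)) := (sq_Wt hwf _).symm
  have h3 : ∑ x, φ t x * Wt f w t (φ (t + 1)) x = ∑ x, φ (t + 1) x * Wt f w t (φ t) x := by
    rw [ip_Wt hwf]; exact sum_congr rfl fun x _ => mul_comm _ _
  rw [h2, h3]
  unfold sq
  rw [← sum_add_distrib, ← sum_add_distrib, ← sum_sub_distrib]
  refine sum_congr rfl fun x _ => ?_
  simp only [Pi.sub_apply]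
  ring

end Wt

/-! ### decomposition of a sequence of states -/

section Seq
variable {ι : Type*} [DecidableEq ι] [Fintype ι]

/-- mean of the pulled back states -/
noncomputable def mean (T : ℕ) (χ : ℕ → (ι → Bool) → ℝ) : (ι → Bool) → ℝ :=
  fun x => (∑ t ∈ range (T + 1), χ t x) / (T + 1)

theorem seq_mean (T : ℕ) (χ : ℕ → (ι → Bool) → ℝ) :
    ∑ t ∈ range (T + 1), sq (χ t) =
      (T + 1) * sq (mean T χ) + ∑ t ∈ range (T + 1), sq (χ t - mean T χ) := by
  unfold sq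
  rw [sum_comm, sum_comm (s := range (T + 1)) (f := fun t x => (χ t - mean T χ) x ^ 2), mul_sum,
    ← sum_add_distrib]
  exact sum_congr rfl fun x _ => mean_sq (fun t => χ t x) T

theorem seq_path (T : ℕ) (χ : ℕ → (ι → Bool) → ℝ) :
    ∑ t ∈ range (T + 1), sq (χ t - mean T χ) ≤
      (T + 1) ^ 2 / 2 * ∑ t ∈ range T, sq (χ (t + 1) - χ t) := by
  unfold sq
  rw [sum_comm, sum_comm (s := range T), mul_sum]
  exact sum_le_sum fun x _ => path_ineq (fun t => χ t x) T

/-- weighted square of a sum -/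
theorem sq_add_ge (p q : ℝ) : 15 / 16 * p ^ 2 - 16 * q ^ 2 ≤ (p + q) ^ 2 := by
  nlinarith [sq_nonneg (p / 4 + 4 * q), sq_nonneg q]

theorem wsq_add_ge {m : (ι → Bool) → ℝ} {M : ℝ} (h0 : ∀ x, 0 ≤ m x) (h1 : ∀ x, m x ≤ M)
    (p q : (ι → Bool) → ℝ) :
    15 / 16 * ∑ x, m x * p x ^ 2 - 16 * M * sq q ≤ ∑ x, m x * (p + q) x ^ 2 := by
  unfold sq
  rw [mul_sum, mul_sum, ← sum_sub_distrib]
  refine sum_le_sum fun x _ => ?_
  simp only [Pi.add_apply]
  have h2 := sq_add_ge (p x) (q x)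
  have h3 := mul_le_mul_of_nonneg_left h2 (h0 x)
  have h4 : m x * q x ^ 2 ≤ M * q x ^ 2 := mul_le_mul_of_nonneg_right (h1 x) (sq_nonneg _)
  nlinarith

/-- number of violated ancillas -/
def nviol {ι : Type*} (anc : List ι) (x : ι → Bool) : ℝ := (anc.map fun i => nb (x i)).sum

theorem nviol_nonneg {ι : Type*} (anc : List ι) (x : ι → Bool) : 0 ≤ nviol anc x := by
  unfold nviol
  refine List.sum_nonneg fun a ha => ?_
  obtain ⟨i, _, rfl⟩ := List.mem_map.1 ha
  unfold nb; split <;> norm_num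

theorem nviol_le {ι : Type*} (anc : List ι) (x : ι → Bool) : nviol anc x ≤ anc.length := by
  unfold nviol
  induction anc with
  | nil => simp
  | cons i anc ih =>
    simp only [List.map_cons, List.sum_cons, List.length_cons, Nat.cast_add, Nat.cast_one]
    have : nb (x i) ≤ 1 := by unfold nb; split <;> norm_num
    linarith

theorem nviol_ge {ι : Type*} (anc : List ι) (x : ι → Bool) (h : ∃ i ∈ anc, x i = true) :
    1 ≤ nviol anc x := by
  obtain ⟨i, hi, hx⟩ := h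
  have h1 : nb (x i) ∈ anc.map fun i => nb (x i) := List.mem_map.2 ⟨i, hi, rfl⟩
  have h2 : nb (x i) ≤ (anc.map fun i => nb (x i)).sum := by
    refine List.single_le_sum ?_ _ h1
    intro a ha
    obtain ⟨i, _, rfl⟩ := List.mem_map.1 ha
    unfold nb; split <;> norm_num
  have h3 : nb (x i) = 1 := by rw [hx]; rfl
  unfold nviol; linarith

theorem nviol_zero {ι : Type*} (anc : List ι) (x : ι → Bool) (h : ¬ ∃ i ∈ anc, x i = true) :
    nviol anc x = 0 := by
  unfold nviol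
  push Not at h
  refine List.sum_eq_zero fun a ha => ?_
  obtain ⟨i, hi, rfl⟩ := List.mem_map.1 ha
  have := h i hi
  unfold nb; rw [if_neg this]

/-- the energy of the mean state: ancilla penalty and output penalty -/
theorem mean_energy (anc : List ι) (out : ι) (V : ((ι → Bool) → ℝ) →ₗ[ℝ] ((ι → Bool) → ℝ))
    (hV : ∀ φ, sq (V φ) = sq φ)
    (hrej : ∀ φ : (ι → Bool) → ℝ, AncZero anc φ →
      (∑ x, if x out then V φ x ^ 2 else 0) ≤ 1 / 3 * sq φ) (η : (ι → Bool) → ℝ) :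
    5 / 8 * sq η ≤ 17 * ∑ x, nviol anc x * η x ^ 2 + ∑ x, (1 - nb (x out)) * V η x ^ 2 := by
  classical
  set p : (ι → Bool) → ℝ := fun x => if ∃ i ∈ anc, x i = true then 0 else η x with hp
  set q : (ι → Bool) → ℝ := fun x => if ∃ i ∈ anc, x i = true then η x else 0 with hq
  have hpq : η = p + q := by
    funext x; simp only [hp, hq, Pi.add_apply]; split_ifs <;> ring
  have hanc : AncZero anc p := fun x hx => by simp only [hp, if_pos hx]
  have h1 : sq η = sq p + sq q := by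
    unfold sq
    rw [← sum_add_distrib]
    refine sum_congr rfl fun x _ => ?_
    simp only [hp, hq]; split_ifs <;> ring
  have h2 : sq q ≤ ∑ x, nviol anc x * η x ^ 2 := by
    unfold sq
    refine sum_le_sum fun x _ => ?_
    simp only [hq]
    split_ifs with hx
    · have := nviol_ge anc x hx
      nlinarith [sq_nonneg (η x)]
    · have := nviol_nonneg anc x
      nlinarith [sq_nonneg (η x), mul_nonneg this (sq_nonneg (η x))]
  have h3 : ∑ x, (1 - nb (x out)) * V p x ^ 2 = sq (V p) - ∑ x, if x out then V p x ^ 2 else 0 := by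
    unfold sq
    rw [← sum_sub_distrib]
    refine sum_congr rfl fun x _ => ?_
    unfold nb; split_ifs <;> ring
  have h4 := hrej p hanc
  have h5 : 15 / 16 * ∑ x, (1 - nb (x out)) * V p x ^ 2 - 16 * 1 * sq (V q) ≤
      ∑ x, (1 - nb (x out)) * (V p + V q) x ^ 2 := by
    refine wsq_add_ge (fun x => ?_) (fun x => ?_) (V p) (V q)
    · unfold nb; split <;> norm_num
    · unfold nb; split <;> norm_num
  rw [h3, hV p, hV q] at h5
  have h6 : V η = V p + V q := by rw [hpq, map_add]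
  rw [h6]
  have h7 := sq_nonneg' q
  have h8 := sq_nonneg' p
  nlinarith

end Seq

end Vale.Agent.P370.H220
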