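import Vale.Agent.P370.H220.ClockDefs

/-!
# P370, block F1: generic lemmas (flips, reflections, sums, the path inequality)
-/

namespace Vale.Agent.P370.H220

open Finset

section Flip
variable {κ : Type*} [DecidableEq κ]

theorem flp_same (i : κ) (z : κ → Bool) : flp i z i = !z i := by
  simp [flp]

theorem flp_ne {i j : κ} (h : j ≠ i) (z : κ → Bool) : flp i z j = z j := by
  simp [flp, Function.update_of_ne h]

@[simp] theorem flp_flp (i : κ) (z : κ → Bool) : flp i (flp i z) = z := by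
  funext j
  by_cases h : j = i
  · subst h; simp [flp]
  · simp [flp_ne h]

theorem flp_comm (i j : κ) (z : κ → Bool) : flp i (flp j z) = flp j (flp i z) := by
  funext k
  by_cases hi : k = i
  · subst hi
    by_cases hj : k = j
    · subst hj; rfl
    · rw [flp_same, flp_ne hj, flp_ne hj, flp_same]
  · by_cases hj : k = j
    · subst hj
      rw [flp_ne hi, flp_same, flp_same, flp_ne hi]
    · rw [flp_ne hi, flp_ne hj, flp_ne hj, flp_ne hi]

/-- flipping as an equivalence -/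
def flpE (i : κ) : (κ → Bool) ≃ (κ → Bool) where
  toFun := flp i
  invFun := flp i
  left_inv := flp_flp i
  right_inv := flp_flp i

theorem sum_flp [Fintype κ] (i : κ) (F : (κ → Bool) → ℝ) : ∑ z, F (flp i z) = ∑ z, F z :=
  (flpE i).sum_comp F

theorem sg_mul_self (b : Bool) : sg b * sg b = 1 := by cases b <;> simp [sg]

theorem sg_not (b : Bool) : sg (!b) = - sg b := by cases b <;> simp [sg]

theorem sq_nonneg' {α : Type*} [Fintype α] (ψ : α → ℝ) : 0 ≤ sq ψ :=
  sum_nonneg fun _ _ => sq_nonneg _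

/-- the reflection is linear, symmetric, involutive, isometric -/
theorem rop_add (w : Option (κ × ℕ)) (φ χ : (κ → Bool) → ℝ) :
    rop w (φ + χ) = rop w φ + rop w χ := by
  rcases w with _ | ⟨s, k⟩
  · rfl
  · funext x; simp only [rop, Pi.add_apply]; ring

theorem rop_smul (w : Option (κ × ℕ)) (c : ℝ) (φ : (κ → Bool) → ℝ) :
    rop w (c • φ) = c • rop w φ := by
  rcases w with _ | ⟨s, k⟩
  · rfl
  · funext x; simp only [rop, Pi.smul_apply, smul_eq_mul]; ring

theorem rop_rop (w : Option (κ × ℕ)) (φ : (κ → Bool) → ℝ) : rop w (rop w φ) = φ := by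
  rcases w with _ | ⟨s, k⟩
  · rfl
  · funext x
    simp only [rop, flp_same, flp_flp, sg_not]
    have h1 := Real.sin_sq_add_cos_sq (k * Real.pi / 8)
    have h2 := sg_mul_self (x s)
    generalize Real.cos (k * Real.pi / 8) = c at *
    generalize Real.sin (k * Real.pi / 8) = d at *
    generalize sg (x s) = e at *
    linear_combination φ x * h1 + c ^ 2 * φ x * h2

theorem ip_rop [Fintype κ] (w : Option (κ × ℕ)) (φ χ : (κ → Bool) → ℝ) :
    ∑ x, φ x * rop w χ x = ∑ x, rop w φ x * χ x := by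
  rcases w with _ | ⟨s, k⟩
  · rfl
  · simp only [rop, mul_add, add_mul, sum_add_distrib]
    congr 1
    · exact sum_congr rfl fun x _ => by ring
    · rw [← sum_flp s (fun x => φ x * (Real.sin (k * Real.pi / 8) * χ (flp s x)))]
      exact sum_congr rfl fun x _ => by rw [flp_flp]; ring

theorem sq_rop [Fintype κ] (w : Option (κ × ℕ)) (φ : (κ → Bool) → ℝ) :
    sq (rop w φ) = sq φ := by
  have h := ip_rop w (rop w φ) φ
  rw [rop_rop] at h
  unfold sq
  calc ∑ z, rop w φ z ^ 2 = ∑ z, rop w φ z * rop w φ z := sum_congr rfl fun _ _ => pow_two _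
    _ = ∑ z, φ z * φ z := h
    _ = ∑ z, φ z ^ 2 := sum_congr rfl fun _ _ => (pow_two _).symm

/-- locality: the value at `x` only depends on the values at `x` and `flp s x` -/
theorem rop_congr (w : Option (κ × ℕ)) (φ χ : (κ → Bool) → ℝ) (x : κ → Bool)
    (h0 : φ x = χ x) (h1 : ∀ s k, w = some (s, k) → φ (flp s x) = χ (flp s x)) :
    rop w φ x = rop w χ x := by
  rcases w with _ | ⟨s, k⟩
  · exact h0
  · simp only [rop, h0, h1 s k rfl]

/-- multiplication by an indicator-like function that is invariant under the flip -/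
theorem rop_mul (w : Option (κ × ℕ)) (m φ : (κ → Bool) → ℝ)
    (h : ∀ s k, w = some (s, k) → ∀ x, m (flp s x) = m x) (x : κ → Bool) :
    rop w (fun y => m y * φ y) x = m x * rop w φ x := by
  rcases w with _ | ⟨s, k⟩
  · rfl
  · simp only [rop, h s k rfl]; ring

/-- the transfer form of a clock bit `k` with the reflection `w` -/
noncomputable def trf [Fintype κ] (k : κ) (w : Option (κ × ℕ)) (φ ψ : (κ → Bool) → ℝ) : ℝ :=
  ∑ z, φ z * rop w (fun z => ψ (flp k z)) z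

theorem trf_add_right [Fintype κ] (k : κ) (w : Option (κ × ℕ)) (φ ψ χ : (κ → Bool) → ℝ) :
    trf k w φ (ψ + χ) = trf k w φ ψ + trf k w φ χ := by
  unfold trf
  have : (fun z => (ψ + χ) (flp k z)) = (fun z => ψ (flp k z)) + (fun z => χ (flp k z)) := rfl
  rw [this, rop_add, ← sum_add_distrib]
  exact sum_congr rfl fun x _ => by simp only [Pi.add_apply]; ring

theorem trf_add_left [Fintype κ] (k : κ) (w : Option (κ × ℕ)) (φ ψ χ : (κ → Bool) → ℝ) :
    trf k w (φ + ψ) χ = trf k w φ χ + trf k w ψ χ := by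
  unfold trf
  rw [← sum_add_distrib]
  exact sum_congr rfl fun x _ => by simp only [Pi.add_apply]; ring

theorem rop_flp (k : κ) (w : Option (κ × ℕ)) (hw : ∀ s l, w = some (s, l) → s ≠ k)
    (ψ : (κ → Bool) → ℝ) (z : κ → Bool) :
    rop w (fun z => ψ (flp k z)) z = rop w ψ (flp k z) := by
  rcases w with _ | ⟨s, l⟩
  · rfl
  · simp only [rop, flp_ne (hw s l rfl), flp_comm k s]

theorem trf_comm [Fintype κ] (k : κ) (w : Option (κ × ℕ)) (hw : ∀ s l, w = some (s, l) → s ≠ k)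
    (φ ψ : (κ → Bool) → ℝ) : trf k w φ ψ = trf k w ψ φ := by
  unfold trf
  rw [ip_rop]
  rw [← sum_flp k]
  refine sum_congr rfl fun x _ => ?_
  rw [flp_flp, rop_flp k w hw, mul_comm]

theorem trf_le [Fintype κ] (k : κ) (w : Option (κ × ℕ)) (φ ψ : (κ → Bool) → ℝ) (c : ℝ)
    (hc : 0 < c) : 2 * trf k w φ ψ ≤ c * sq φ + c⁻¹ * sq ψ := by
  have h : sq ψ = ∑ z, (rop w (fun z => ψ (flp k z)) z) ^ 2 := by
    have h1 : ∑ z, (rop w (fun z => ψ (flp k z)) z) ^ 2 = sq (rop w fun z => ψ (flp k z)) := rfl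
    rw [h1, sq_rop]
    unfold sq
    rw [sum_flp k (fun z => ψ z ^ 2)]
  rw [h]
  unfold trf sq
  rw [mul_sum, mul_sum, mul_sum, ← sum_add_distrib]
  refine sum_le_sum fun z _ => ?_
  generalize rop w (fun z => ψ (flp k z)) z = b
  have h2 : 0 ≤ (c * φ z - b) ^ 2 := sq_nonneg _
  have h3 : c * φ z ^ 2 + c⁻¹ * b ^ 2 - 2 * (φ z * b) = c⁻¹ * (c * φ z - b) ^ 2 := by
    field_simp; ring
  have h4 : 0 ≤ c⁻¹ * (c * φ z - b) ^ 2 := mul_nonneg (inv_nonneg.2 hc.le) h2
  linarith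

end Flip

/-! ### real sequences: mean and path inequality -/

theorem mean_sq (a : ℕ → ℝ) (T : ℕ) :
    ∑ t ∈ range (T + 1), a t ^ 2 =
      (T + 1) * ((∑ t ∈ range (T + 1), a t) / (T + 1)) ^ 2 +
        ∑ t ∈ range (T + 1), (a t - (∑ t ∈ range (T + 1), a t) / (T + 1)) ^ 2 := by
  have hT : (T + 1 : ℝ) ≠ 0 := by positivity
  set m := (∑ t ∈ range (T + 1), a t) / (T + 1) with hm
  have h1 : ∑ t ∈ range (T + 1), a t = (T + 1) * m := by rw [hm]; field_simp
  have h2 : ∑ t ∈ range (T + 1), (a t - m) ^ 2 =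
      ∑ t ∈ range (T + 1), a t ^ 2 - 2 * m * ∑ t ∈ range (T + 1), a t + (T + 1) * m ^ 2 := by
    rw [mul_sum, ← sum_sub_distrib]
    have : ((T : ℝ) + 1) * m ^ 2 = ∑ t ∈ range (T + 1), m ^ 2 := by
      rw [sum_const, card_range, nsmul_eq_mul]; push_cast; ring
    rw [this, ← sum_add_distrib]
    exact sum_congr rfl fun t _ => by ring
  rw [h2, h1]; ring

theorem path_from_zero (a : ℕ → ℝ) (T t : ℕ) (ht : t ≤ T) :
    (a t - a 0) ^ 2 ≤ t * ∑ s ∈ range T, (a (s + 1) - a s) ^ 2 := by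
  have h1 : a t - a 0 = ∑ s ∈ range t, (a (s + 1) - a s) := (sum_range_sub a t).symm
  have h2 : (∑ s ∈ range t, (a (s + 1) - a s)) ^ 2 ≤
      (range t).card * ∑ s ∈ range t, (a (s + 1) - a s) ^ 2 := sq_sum_le_card_mul_sum_sq
  rw [card_range] at h2
  have h3 : ∑ s ∈ range t, (a (s + 1) - a s) ^ 2 ≤ ∑ s ∈ range T, (a (s + 1) - a s) ^ 2 :=
    sum_le_sum_of_subset_of_nonneg (range_mono ht) fun _ _ _ => sq_nonneg _
  rw [h1]
  calc (∑ s ∈ range t, (a (s + 1) - a s)) ^ 2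
      ≤ t * ∑ s ∈ range t, (a (s + 1) - a s) ^ 2 := h2
    _ ≤ t * ∑ s ∈ range T, (a (s + 1) - a s) ^ 2 :=
        mul_le_mul_of_nonneg_left h3 (by positivity)

theorem path_ineq (a : ℕ → ℝ) (T : ℕ) :
    ∑ t ∈ range (T + 1), (a t - (∑ t ∈ range (T + 1), a t) / (T + 1)) ^ 2 ≤
      (T + 1) ^ 2 / 2 * ∑ s ∈ range T, (a (s + 1) - a s) ^ 2 := by
  set m := (∑ t ∈ range (T + 1), a t) / (T + 1) with hm
  have hT : (T + 1 : ℝ) ≠ 0 := by positivity
  have h1 : ∑ t ∈ range (T + 1), a t = (T + 1) * m := by rw [hm]; field_simp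
  have hc : ∀ c : ℝ, ((T : ℝ) + 1) * c = ∑ t ∈ range (T + 1), c := by
    intro c; rw [sum_const, card_range, nsmul_eq_mul]; push_cast; ring
  -- the mean minimises
  have h2 : ∑ t ∈ range (T + 1), (a t - m) ^ 2 ≤ ∑ t ∈ range (T + 1), (a t - a 0) ^ 2 := by
    have h3 : ∑ t ∈ range (T + 1), (a t - a 0) ^ 2 - ∑ t ∈ range (T + 1), (a t - m) ^ 2 =
        (T + 1) * (m - a 0) ^ 2 := by
      have e1 : ∑ t ∈ range (T + 1), (a t - a 0) ^ 2 - ∑ t ∈ range (T + 1), (a t - m) ^ 2 =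
          2 * (m - a 0) * ∑ t ∈ range (T + 1), a t + (T + 1) * (a 0 ^ 2 - m ^ 2) := by
        rw [hc, mul_sum, ← sum_sub_distrib, ← sum_add_distrib]
        exact sum_congr rfl fun t _ => by ring
      rw [e1, h1]; ring
    have h4 : 0 ≤ ((T : ℝ) + 1) * (m - a 0) ^ 2 := by positivity
    linarith
  have h5 : ∑ t ∈ range (T + 1), (a t - a 0) ^ 2 ≤
      ∑ t ∈ range (T + 1), ((t : ℝ) * ∑ s ∈ range T, (a (s + 1) - a s) ^ 2) :=
    sum_le_sum fun t ht => path_from_zero a T t (Nat.lt_succ_iff.1 (mem_range.1 ht))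
  have hg : ∑ t ∈ range (T + 1), (t : ℝ) = T * (T + 1) / 2 := by
    have h7 := Finset.sum_range_id_mul_two (T + 1)
    have h8 : ((∑ t ∈ range (T + 1), t : ℕ) : ℝ) * 2 = (T + 1) * T := by
      exact_mod_cast h7
    push_cast at h8
    linarith
  rw [← sum_mul, hg] at h5
  have h6 : (0 : ℝ) ≤ ∑ s ∈ range T, (a (s + 1) - a s) ^ 2 := sum_nonneg fun _ _ => sq_nonneg _
  calc ∑ t ∈ range (T + 1), (a t - m) ^ 2 ≤ _ := h2
    _ ≤ T * (T + 1) / 2 * ∑ s ∈ range T, (a (s + 1) - a s) ^ 2 := h5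
    _ ≤ (T + 1) ^ 2 / 2 * ∑ s ∈ range T, (a (s + 1) - a s) ^ 2 :=
        mul_le_mul_of_nonneg_right (by nlinarith [(Nat.cast_nonneg T : (0 : ℝ) ≤ T)]) h6

end Vale.Agent.P370.H220
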