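import Vale.Agent.P370.H220.ClockGen

/-!
# P370, block F1: legal configurations of the branching clock
-/

namespace Vale.Agent.P370.H220

open Finset

/-- layout with the clock bits indexed by `(j, e)`, `e = false` for `ca`, `e = true` for `cb` -/
structure LayC {ι κ : Type*} (dat : ι → κ) (c : ℕ → Bool → κ) (S : ℕ) : Prop where
  dat_inj : Function.Injective dat
  c_inj : ∀ j k e e', j < S → k < S → c j e = c k e' → j = k ∧ e = e'
  c_dat : ∀ j e i, j < S → c j e ≠ dat i
  surj : ∀ z : κ, (∃ i, z = dat i) ∨ (∃ j < S, ∃ e, z = c j e)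

section
variable {ι κ : Type*} {dat : ι → κ} {c : ℕ → Bool → κ} {S : ℕ}

/-- the sites as a sum type -/
noncomputable def LayC.equiv (h : LayC dat c S) : ι ⊕ (Fin S × Bool) ≃ κ :=
  Equiv.ofBijective (Sum.elim dat fun p => c p.1 p.2) <| by
    constructor
    · rintro (i | ⟨j, e⟩) (i' | ⟨j', e'⟩) hh
      · exact congrArg Sum.inl (h.dat_inj hh)
      · exact absurd hh.symm (h.c_dat _ _ _ j'.2)
      · exact absurd hh (h.c_dat _ _ _ j.2)
      · obtain ⟨h1, h2⟩ := h.c_inj _ _ _ _ j.2 j'.2 hh
        obtain rfl := Fin.ext h1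
        subst h2
        rfl
    · intro z
      rcases h.surj z with ⟨i, rfl⟩ | ⟨j, hj, e, rfl⟩
      · exact ⟨Sum.inl i, rfl⟩
      · exact ⟨Sum.inr (⟨j, hj⟩, e), rfl⟩

/-- configuration with data part `x` and clock bits `C` -/
noncomputable def LayC.mk' (h : LayC dat c S) (x : ι → Bool) (C : ℕ → Bool → Bool) : κ → Bool :=
  fun z => Sum.elim x (fun p : Fin S × Bool => C p.1 p.2) (h.equiv.symm z)

theorem LayC.mk_dat (h : LayC dat c S) (x : ι → Bool) (C : ℕ → Bool → Bool) (i : ι) :
    h.mk' x C (dat i) = x i := by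
  have : h.equiv.symm (dat i) = Sum.inl i := by
    rw [Equiv.symm_apply_eq]; rfl
  simp [LayC.mk', this]

theorem LayC.mk_c (h : LayC dat c S) (x : ι → Bool) (C : ℕ → Bool → Bool) {j : ℕ} (hj : j < S)
    (e : Bool) : h.mk' x C (c j e) = C j e := by
  have : h.equiv.symm (c j e) = Sum.inr (⟨j, hj⟩, e) := by
    rw [Equiv.symm_apply_eq]; rfl
  simp [LayC.mk', this]

theorem LayC.ext (h : LayC dat c S) {z z' : κ → Bool} (h1 : ∀ i, z (dat i) = z' (dat i))
    (h2 : ∀ j < S, ∀ e, z (c j e) = z' (c j e)) : z = z' := by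
  funext k
  rcases h.surj k with ⟨i, rfl⟩ | ⟨j, hj, e, rfl⟩
  · exact h1 i
  · exact h2 j hj e

/-- the time at which the clock bit `(j, e)` flips, for data `x` -/
def tau (f : ℕ → ι) (j : ℕ) (e : Bool) (x : ι → Bool) : ℕ :=
  if x (f j) = e then 2 * j + 1 else 2 * j + 2

theorem tau_ge (f : ℕ → ι) (j : ℕ) (e : Bool) (x : ι → Bool) : 2 * j + 1 ≤ tau f j e x := by
  unfold tau; split <;> omega

theorem tau_le (f : ℕ → ι) (j : ℕ) (e : Bool) (x : ι → Bool) : tau f j e x ≤ 2 * j + 2 := by
  unfold tau; split <;> omega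

theorem tau_congr (f : ℕ → ι) (j : ℕ) (e : Bool) {x y : ι → Bool} (h : x (f j) = y (f j)) :
    tau f j e x = tau f j e y := by
  unfold tau; rw [h]

theorem tau_ne (f : ℕ → ι) (j : ℕ) (e : Bool) (x : ι → Bool) :
    tau f j (!e) x ≠ tau f j e x := by
  unfold tau
  cases x (f j) <;> cases e <;> simp

/-- the clock bit flipped between the times `t` and `t + 1` -/
def bit (f : ℕ → ι) (t : ℕ) (x : ι → Bool) : Bool :=
  if t % 2 = 0 then x (f (t / 2)) else !(x (f (t / 2)))

theorem tau_bit (f : ℕ → ι) (t : ℕ) (x : ι → Bool) : tau f (t / 2) (bit f t x) x = t + 1 := by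
  unfold tau bit
  rcases Nat.mod_two_eq_zero_or_one t with h | h
  · rw [if_pos h, if_pos rfl]; omega
  · have h0 : ¬ t % 2 = 0 := by omega
    have h1 : ¬ (x (f (t / 2)) = !(x (f (t / 2)))) := by cases x (f (t / 2)) <;> simp
    rw [if_neg h0, if_neg h1]; omega

theorem tau_eq_iff (f : ℕ → ι) (t j : ℕ) (e : Bool) (x : ι → Bool) :
    tau f j e x = t + 1 ↔ j = t / 2 ∧ e = bit f t x := by
  constructor
  · intro h
    have hj : j = t / 2 := by
      have h1 := tau_ge f j e x
      have h2 := tau_le f j e x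
      omega
    subst hj
    refine ⟨rfl, ?_⟩
    by_contra hne
    have h3 : e = !(bit f t x) := by
      cases e <;> cases h5 : bit f t x <;> simp_all
    have h4 := tau_ne f (t / 2) (bit f t x) x
    rw [← h3, tau_bit, h] at h4
    exact h4 rfl
  · rintro ⟨rfl, rfl⟩
    exact tau_bit f t x

/-- the legal configuration at time `t` with data `x` -/
noncomputable def leg (h : LayC dat c S) (f : ℕ → ι) (t : ℕ) (x : ι → Bool) : κ → Bool :=
  h.mk' x fun j e => decide (tau f j e x ≤ t)

theorem leg_dat (h : LayC dat c S) (f : ℕ → ι) (t : ℕ) (x : ι → Bool) (i : ι) :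
    leg h f t x (dat i) = x i := h.mk_dat _ _ _

theorem leg_c (h : LayC dat c S) (f : ℕ → ι) (t : ℕ) (x : ι → Bool) {j : ℕ} (hj : j < S)
    (e : Bool) : leg h f t x (c j e) = decide (tau f j e x ≤ t) := h.mk_c _ _ hj _

theorem leg_inj (h : LayC dat c S) (f : ℕ → ι) {t t' : ℕ} (ht : t ≤ 2 * S) (ht' : t' ≤ 2 * S)
    {x x' : ι → Bool} (hh : leg h f t x = leg h f t' x') : t = t' ∧ x = x' := by
  have hx : x = x' := by
    funext i
    rw [← leg_dat h f t x i, hh, leg_dat]
  subst hx
  refine ⟨?_, rfl⟩
  have key : ∀ {t t' : ℕ}, t' ≤ 2 * S → leg h f t x = leg h f t' x → ¬ t < t' := by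
    intro t t' ht' hh hlt
    have h1 : t / 2 < S := by omega
    have h2 := congrFun hh (c (t / 2) (bit f t x))
    rw [leg_c h f t x h1, leg_c h f t' x h1, tau_bit] at h2
    simp at h2
    omega
  rcases lt_trichotomy t t' with h1 | h1 | h1
  · exact absurd h1 (key ht' hh)
  · exact h1
  · exact absurd h1 (key ht hh.symm)

/-! ### the diagonal penalty -/

/-- real value of a bit -/
def nb (b : Bool) : ℝ := if b then 1 else 0

/-- ordering penalty between the steps `j` and `j + 1` -/
def ordP (c : ℕ → Bool → κ) (j : ℕ) (z : κ → Bool) : ℝ :=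
  ∑ e : Bool, ∑ e' : Bool, (1 - nb (z (c j e))) * nb (z (c (j + 1) e'))

/-- branch penalty of the step `j` -/
def braP (dat : ι → κ) (c : ℕ → Bool → κ) (f : ℕ → ι) (j : ℕ) (z : κ → Bool) : ℝ :=
  nb (z (c j false)) + nb (z (c j true)) - 2 * (nb (z (c j false)) * nb (z (c j true))) -
    (nb (z (c j false)) - nb (z (c j true))) * sg (z (dat (f j)))

/-- the whole penalty -/
def DD (dat : ι → κ) (c : ℕ → Bool → κ) (f : ℕ → ι) (S : ℕ) (z : κ → Bool) : ℝ :=
  ∑ j ∈ range (S - 1), ordP c j z + ∑ j ∈ range S, braP dat c f j z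

theorem ordP_nonneg (c : ℕ → Bool → κ) (j : ℕ) (z : κ → Bool) : 0 ≤ ordP c j z := by
  unfold ordP
  refine sum_nonneg fun e _ => sum_nonneg fun e' _ => ?_
  cases z (c j e) <;> cases z (c (j + 1) e') <;> simp [nb]

theorem ordP_cases (c : ℕ → Bool → κ) (j : ℕ) (z : κ → Bool) :
    1 ≤ ordP c j z ∨ ∀ e e', z (c (j + 1) e') = true → z (c j e) = true := by
  unfold ordP
  simp only [Fintype.sum_bool]
  cases h1 : z (c j true) <;> cases h2 : z (c j false) <;> cases h3 : z (c (j + 1) true) <;>
    cases h4 : z (c (j + 1) false) <;> simp [nb, h1, h2, h3, h4]; norm_num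

theorem braP_nonneg (dat : ι → κ) (c : ℕ → Bool → κ) (f : ℕ → ι) (j : ℕ) (z : κ → Bool) :
    0 ≤ braP dat c f j z := by
  unfold braP
  cases z (c j false) <;> cases z (c j true) <;> cases z (dat (f j)) <;> simp [nb, sg] <;>
    norm_num

theorem braP_cases (dat : ι → κ) (c : ℕ → Bool → κ) (f : ℕ → ι) (j : ℕ) (z : κ → Bool) :
    1 ≤ braP dat c f j z ∨
      ∀ e, z (c j e) = true → z (c j (!e)) = false → z (dat (f j)) = e := by
  unfold braP
  cases h1 : z (c j false) <;> cases h2 : z (c j true) <;> cases h3 : z (dat (f j)) <;>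
    simp [nb, sg, h1, h2] <;> norm_num

theorem DD_nonneg (dat : ι → κ) (c : ℕ → Bool → κ) (f : ℕ → ι) (S : ℕ) (z : κ → Bool) :
    0 ≤ DD dat c f S z :=
  add_nonneg (sum_nonneg fun _ _ => ordP_nonneg _ _ _) (sum_nonneg fun _ _ => braP_nonneg _ _ _ _ _)

theorem DD_cases (h : LayC dat c S) (f : ℕ → ι) (z : κ → Bool) :
    1 ≤ DD dat c f S z ∨ ∃ t ≤ 2 * S, z = leg h f t (fun i => z (dat i)) := by
  by_cases ho : ∃ j < S - 1, 1 ≤ ordP c j z
  · left
    obtain ⟨j, hj, h1⟩ := ho
    have h2 : ordP c j z ≤ ∑ j ∈ range (S - 1), ordP c j z :=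
      single_le_sum (f := fun j => ordP c j z) (fun _ _ => ordP_nonneg _ _ _) (mem_range.2 hj)
    have h3 : 0 ≤ ∑ j ∈ range S, braP dat c f j z := sum_nonneg fun _ _ => braP_nonneg _ _ _ _ _
    unfold DD; linarith
  by_cases hb : ∃ j < S, 1 ≤ braP dat c f j z
  · left
    obtain ⟨j, hj, h1⟩ := hb
    have h2 : braP dat c f j z ≤ ∑ j ∈ range S, braP dat c f j z :=
      single_le_sum (f := fun j => braP dat c f j z) (fun _ _ => braP_nonneg _ _ _ _ _)
        (mem_range.2 hj)
    have h3 : 0 ≤ ∑ j ∈ range (S - 1), ordP c j z := sum_nonneg fun _ _ => ordP_nonneg _ _ _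
    unfold DD; linarith
  right
  push Not at ho hb
  have ho' : ∀ j, j + 1 < S → ∀ e e', z (c (j + 1) e') = true → z (c j e) = true := fun j hj =>
    (ordP_cases c j z).resolve_left (not_le.2 (ho j (by omega)))
  have hb' : ∀ j < S, ∀ e, z (c j e) = true → z (c j (!e)) = false → z (dat (f j)) = e :=
    fun j hj => (braP_cases dat c f j z).resolve_left (not_le.2 (hb j hj))
  by_cases hall : ∀ j < S, ∀ e, z (c j e) = true
  · refine ⟨2 * S, le_rfl, h.ext (fun i => (leg_dat h f _ (fun i => z (dat i)) i).symm) fun j hj e => ?_⟩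
    rw [leg_c h f _ _ hj, hall j hj e]
    have := tau_le f j e fun i => z (dat i)
    exact (decide_eq_true (by omega)).symm
  · push Not at hall
    have hex : ∃ j, j < S ∧ ∃ e, z (c j e) ≠ true := by
      obtain ⟨j, hj, e, he⟩ := hall; exact ⟨j, hj, e, he⟩
    classical
    set J := Nat.find hex with hJ
    obtain ⟨hJS, e0, he0⟩ := Nat.find_spec hex
    rw [← hJ] at hJS he0
    have hbelow : ∀ j < J, ∀ e, z (c j e) = true := by
      intro j hj e
      by_contra hne
      exact Nat.find_min hex hj ⟨by omega, e, hne⟩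
    clear_value J
    clear hJ
    have habove : ∀ j, J < j → j < S → ∀ e, z (c j e) = false := by
      intro j
      induction j with
      | zero => intro h1; omega
      | succ j ih =>
        intro h1 h2 e
        by_contra hne
        have h3 : z (c (j + 1) e) = true := by simpa using hne
        have h4 : ∀ e', z (c j e') = true := fun e' => ho' j h2 e' e h3
        rcases Nat.lt_succ_iff_lt_or_eq.1 h1 with h5 | h5
        · have := ih h5 (by omega) e
          rw [h4 e] at this; exact absurd this (by simp)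
        · rw [← h5] at h4
          exact he0 (h4 e0)
    have he0' : z (c J e0) = false := by simpa using he0
    by_cases h1 : z (c J (!e0)) = true
    · -- one bit set: time 2J+1
      have hx : z (dat (f J)) = !e0 := hb' J hJS (!e0) h1 (by simpa using he0')
      refine ⟨2 * J + 1, by omega, h.ext (fun i => (leg_dat h f _ (fun i => z (dat i)) i).symm) fun j hj e => ?_⟩
      rw [leg_c h f _ _ hj]
      rcases lt_trichotomy j J with h2 | h2 | h2
      · rw [hbelow j h2 e]
        have := tau_le f j e fun i => z (dat i)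
        exact (decide_eq_true (by omega)).symm
      · by_cases h3 : e = e0
        · subst h3
          rw [h2, he0']
          have : tau f J e (fun i => z (dat i)) = 2 * J + 2 := by
            unfold tau; rw [if_neg]; simp [hx]
          rw [this]
          simp
        · have h4 : e = !e0 := Bool.eq_not.2 h3
          subst h4
          rw [h2, h1]
          have : tau f J (!e0) (fun i => z (dat i)) = 2 * J + 1 := by
            unfold tau; rw [if_pos hx]
          rw [this]
          simp
      · rw [habove j h2 hj e]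
        have := tau_ge f j e fun i => z (dat i)
        exact (decide_eq_false (by omega)).symm
    · -- no bit set: time 2J
      have h1' : z (c J (!e0)) = false := by simpa using h1
      refine ⟨2 * J, by omega, h.ext (fun i => (leg_dat h f _ (fun i => z (dat i)) i).symm) fun j hj e => ?_⟩
      rw [leg_c h f _ _ hj]
      rcases lt_trichotomy j J with h2 | h2 | h2
      · rw [hbelow j h2 e]
        have := tau_le f j e fun i => z (dat i)
        exact (decide_eq_true (by omega)).symm
      · have h5 : z (c j e) = false := by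
          rw [h2]
          by_cases h3 : e = e0
          · rw [h3, he0']
          · rw [Bool.eq_not.2 h3, h1']
        rw [h5]
        have := tau_ge f j e fun i => z (dat i)
        exact (decide_eq_false (by omega)).symm
      · rw [habove j h2 hj e]
        have := tau_ge f j e fun i => z (dat i)
        exact (decide_eq_false (by omega)).symm

theorem ordP_leg (h : LayC dat c S) (f : ℕ → ι) (t : ℕ) (x : ι → Bool) {j : ℕ} (hj : j + 1 < S) :
    ordP c j (leg h f t x) = 0 := by
  unfold ordP
  refine sum_eq_zero fun e _ => sum_eq_zero fun e' _ => ?_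
  rw [leg_c h f t x (by omega), leg_c h f t x hj]
  have h1 := tau_le f j e x
  have h2 := tau_ge f (j + 1) e' x
  by_cases h3 : tau f (j + 1) e' x ≤ t
  · rw [decide_eq_true h3, decide_eq_true (by omega : tau f j e x ≤ t)]; simp [nb]
  · rw [decide_eq_false h3]; simp [nb]

theorem braP_leg (h : LayC dat c S) (f : ℕ → ι) (t : ℕ) (x : ι → Bool) {j : ℕ} (hj : j < S) :
    braP dat c f j (leg h f t x) = 0 := by
  unfold braP
  rw [leg_c h f t x hj, leg_c h f t x hj, leg_dat]
  rcases Nat.lt_or_ge t (2 * j + 1) with h1 | h1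
  · have h2 := tau_ge f j false x
    have h3 := tau_ge f j true x
    rw [decide_eq_false (by omega), decide_eq_false (by omega)]; simp [nb]
  rcases Nat.lt_or_ge t (2 * j + 2) with h4 | h4
  · have ht : t = 2 * j + 1 := by omega
    subst ht
    cases hx : x (f j) <;> simp [nb, sg, tau, hx]
  · have h2 := tau_le f j false x
    have h3 := tau_le f j true x
    rw [decide_eq_true (by omega), decide_eq_true (by omega)]; simp [nb]; norm_num

theorem DD_leg (h : LayC dat c S) (f : ℕ → ι) (t : ℕ) (x : ι → Bool) :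
    DD dat c f S (leg h f t x) = 0 := by
  unfold DD
  rw [sum_eq_zero fun j hj => ordP_leg h f t x (by have := mem_range.1 hj; omega),
    sum_eq_zero fun j hj => braP_leg h f t x (mem_range.1 hj), add_zero]

end

end Vale.Agent.P370.H220
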