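import Vale.Agent.P370.H220.ClockEnergy

/-!
# P370, block F1: lower and upper bounds for the energy functional of the branching clock
-/

namespace Vale.Agent.P370.H220

open Finset

section
variable {ι κ : Type*} [DecidableEq ι] [DecidableEq κ] [Fintype ι] [Fintype κ]
  {dat : ι → κ} {c : ℕ → Bool → κ} {S : ℕ}

/-- the diagonal part of the Hamiltonian, without the clock penalty -/
noncomputable def dg (dat : ι → κ) (c : ℕ → Bool → κ) (S : ℕ) (anc : List ι) (out : ι)
    (L2 L3 : ℝ) (z : κ → Bool) : ℝ :=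
  L2 * (1 - 1 / 2 * ((1 - nb (z (c 0 false))) * (1 - nb (z (c 0 true)))) -
    1 / 2 * (nb (z (c (S - 1) false)) * nb (z (c (S - 1) true)))) +
  L3 * ((1 - nb (z (c 0 false))) * nviol anc (fun i => z (dat i))) +
  nb (z (c (S - 1) true)) * (1 - nb (z (dat out)))

/-- the energy functional -/
noncomputable def En (dat : ι → κ) (c : ℕ → Bool → κ) (S : ℕ) (f : ℕ → ι)
    (w : ℕ → Bool → Option (ι × ℕ)) (anc : List ι) (out : ι) (L1 L2 L3 : ℝ)
    (ψ : (κ → Bool) → ℝ) : ℝ :=
  ∑ z, (L1 * DD dat c f S z + dg dat c S anc out L2 L3 z) * ψ z ^ 2 -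
    L2 / 2 * ∑ j ∈ range S, ∑ e : Bool, trf (c j e) (wmap dat (w j e)) ψ ψ

theorem nb_nonneg (b : Bool) : 0 ≤ nb b := by unfold nb; split <;> norm_num
theorem nb_le_one (b : Bool) : nb b ≤ 1 := by unfold nb; split <;> norm_num

omit [DecidableEq ι] [DecidableEq κ] [Fintype ι] [Fintype κ] in
theorem dg_nonneg (dat : ι → κ) (c : ℕ → Bool → κ) (S : ℕ) (anc : List ι) (out : ι)
    {L2 L3 : ℝ} (h2 : 0 ≤ L2) (h3 : 0 ≤ L3) (z : κ → Bool) :
    0 ≤ dg dat c S anc out L2 L3 z := by
  unfold dg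
  have a := nb_nonneg (z (c 0 false))
  have a' := nb_le_one (z (c 0 false))
  have b := nb_nonneg (z (c 0 true))
  have b' := nb_le_one (z (c 0 true))
  have d := nb_nonneg (z (c (S - 1) false))
  have d' := nb_le_one (z (c (S - 1) false))
  have e := nb_nonneg (z (c (S - 1) true))
  have e' := nb_le_one (z (c (S - 1) true))
  have g := nb_le_one (z (dat out))
  have k := nviol_nonneg anc (fun i => z (dat i))
  have h4 : (1 - nb (z (c 0 false))) * (1 - nb (z (c 0 true))) ≤ 1 := by nlinarith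
  have h5 : nb (z (c (S - 1) false)) * nb (z (c (S - 1) true)) ≤ 1 := by nlinarith
  have h6 : 0 ≤ L2 * (1 - 1 / 2 * ((1 - nb (z (c 0 false))) * (1 - nb (z (c 0 true)))) -
    1 / 2 * (nb (z (c (S - 1) false)) * nb (z (c (S - 1) true)))) :=
    mul_nonneg h2 (by linarith)
  have h7 : 0 ≤ L3 * ((1 - nb (z (c 0 false))) * nviol anc (fun i => z (dat i))) :=
    mul_nonneg h3 (mul_nonneg (by linarith) k)
  have h8 : 0 ≤ nb (z (c (S - 1) true)) * (1 - nb (z (dat out))) :=
    mul_nonneg e (by linarith)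
  linarith

/-! ### values of the diagonal part on legal configurations -/

omit [DecidableEq ι] [DecidableEq κ] [Fintype ι] [Fintype κ] in
theorem dg_leg (h : LayC dat c S) (hS : 0 < S) (f : ℕ → ι) (anc : List ι) (out : ι)
    (L2 L3 : ℝ) {t : ℕ} (ht : t ≤ 2 * S) (x : ι → Bool) :
    dg dat c S anc out L2 L3 (leg h f t x) =
      L2 * (1 - 1 / 2 * (if t = 0 then 1 else 0) - 1 / 2 * (if t = 2 * S then 1 else 0)) +
      L3 * ((if tau f 0 false x ≤ t then 0 else 1) * nviol anc x) +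
      (if tau f (S - 1) true x ≤ t then 1 else 0) * (1 - nb (x out)) := by
  unfold dg
  have hx : (fun i => leg h f t x (dat i)) = x := by funext i; exact leg_dat h f t x i
  rw [leg_c h f t x hS, leg_c h f t x hS, leg_c h f t x (by omega : S - 1 < S),
    leg_c h f t x (by omega : S - 1 < S), leg_dat, hx]
  have h1 : (1 - nb (decide (tau f 0 false x ≤ t))) * (1 - nb (decide (tau f 0 true x ≤ t))) =
      if t = 0 then 1 else 0 := by
    have a1 := tau_ge f 0 false x
    have a2 := tau_ge f 0 true x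
    by_cases h0 : t = 0
    · rw [if_pos h0, decide_eq_false (by omega), decide_eq_false (by omega)]; simp [nb]
    · rw [if_neg h0]
      cases hb : x (f 0)
      · have : tau f 0 false x = 1 := by simp [tau, hb]
        rw [this, decide_eq_true (by omega)]; simp [nb]
      · have : tau f 0 true x = 1 := by simp [tau, hb]
        rw [this, decide_eq_true (by omega : 1 ≤ t)]; simp [nb]
  have h2 : nb (decide (tau f (S - 1) false x ≤ t)) * nb (decide (tau f (S - 1) true x ≤ t)) =
      if t = 2 * S then 1 else 0 := by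
    have a1 := tau_le f (S - 1) false x
    have a2 := tau_le f (S - 1) true x
    by_cases h0 : t = 2 * S
    · rw [if_pos h0, decide_eq_true (by omega), decide_eq_true (by omega)]; simp [nb]
    · rw [if_neg h0]
      cases hb : x (f (S - 1))
      · have : tau f (S - 1) true x = 2 * S := by simp [tau, hb]; omega
        rw [this, decide_eq_false (by omega : ¬ 2 * S ≤ t)]; simp [nb]
      · have : tau f (S - 1) false x = 2 * S := by simp [tau, hb]; omega
        rw [this, decide_eq_false (by omega : ¬ 2 * S ≤ t)]; simp [nb]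
  rw [h1, h2]
  congr 1
  · congr 1
    congr 2
    by_cases h3 : tau f 0 false x ≤ t
    · rw [decide_eq_true h3, if_pos h3]; simp [nb]
    · rw [decide_eq_false h3, if_neg h3]; simp [nb]
  · congr 1
    by_cases h3 : tau f (S - 1) true x ≤ t
    · rw [decide_eq_true h3, if_pos h3]; simp [nb]
    · rw [decide_eq_false h3, if_neg h3]; simp [nb]

/-! ### energy of legal states -/

/-- propagation energy plus penalties -/
theorem En_legal (h : LayC dat c S) (hS : 0 < S) (f : ℕ → ι) (w : ℕ → Bool → Option (ι × ℕ))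
    (hw : ∀ j < S, ∀ e s k, w j e = some (s, k) → s ≠ f j) (anc : List ι) (out : ι)
    (L1 L2 L3 : ℝ) (ψ : (κ → Bool) → ℝ) (hψ : ∀ z, ¬ Leg h f z → ψ z = 0) :
    En dat c S f w anc out L1 L2 L3 ψ =
      L2 / 2 * ∑ t ∈ range (2 * S), sq (Vi f w (t + 1) (fun x => ψ (leg h f (t + 1) x)) -
        Vi f w t (fun x => ψ (leg h f t x))) +
      ∑ t ∈ range (2 * S + 1), ∑ x,
        (L3 * ((if tau f 0 false x ≤ t then 0 else 1) * nviol anc x) +
        (if tau f (S - 1) true x ≤ t then 1 else 0) * (1 - nb (x out))) *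
          ψ (leg h f t x) ^ 2 := by
  have hwf : ∀ t < 2 * S, WFt f w t := fun t ht e s k hk => hw (t / 2) (by omega) e s k hk
  unfold En
  rw [sum_trf h f w hw ψ hψ, sum_legal h f _ fun z hz => by rw [hψ z hz]; ring]
  set φ : ℕ → (ι → Bool) → ℝ := fun t x => ψ (leg h f t x) with hφ
  have h1 : ∀ t ∈ range (2 * S + 1), ∑ x, (L1 * DD dat c f S (leg h f t x) +
      dg dat c S anc out L2 L3 (leg h f t x)) * ψ (leg h f t x) ^ 2 =
      L2 * (1 - 1 / 2 * (if t = 0 then 1 else 0) - 1 / 2 * (if t = 2 * S then 1 else 0)) *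
        sq (φ t) +
      ∑ x, (L3 * ((if tau f 0 false x ≤ t then 0 else 1) * nviol anc x) +
        (if tau f (S - 1) true x ≤ t then 1 else 0) * (1 - nb (x out))) *
          ψ (leg h f t x) ^ 2 := by
    intro t ht
    unfold sq
    rw [mul_sum, ← sum_add_distrib]
    refine sum_congr rfl fun x _ => ?_
    rw [DD_leg, dg_leg h hS f anc out L2 L3 (Nat.lt_succ_iff.1 (mem_range.1 ht))]
    simp only [hφ]
    ring
  rw [sum_congr rfl h1, sum_add_distrib]
  have h2 : ∑ t ∈ range (2 * S + 1),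
      L2 * (1 - 1 / 2 * (if t = 0 then 1 else 0) - 1 / 2 * (if t = 2 * S then 1 else 0)) *
        sq (φ t) = L2 / 2 * ∑ t ∈ range (2 * S), (sq (φ t) + sq (φ (t + 1))) := by
    have e1 : ∑ t ∈ range (2 * S + 1),
        L2 * (1 - 1 / 2 * (if t = 0 then 1 else 0) - 1 / 2 * (if t = 2 * S then 1 else 0)) *
        sq (φ t) = L2 * ∑ t ∈ range (2 * S + 1), sq (φ t) -
          L2 / 2 * (∑ t ∈ range (2 * S + 1), (if t = 0 then sq (φ t) else 0)) -
          L2 / 2 * (∑ t ∈ range (2 * S + 1), (if t = 2 * S then sq (φ t) else 0)) := by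
      rw [mul_sum, mul_sum, mul_sum, ← sum_sub_distrib, ← sum_sub_distrib]
      refine sum_congr rfl fun t _ => ?_
      split_ifs <;> ring
    rw [e1, sum_ite_eq' (range (2 * S + 1)) 0 (fun t => sq (φ t)),
      sum_ite_eq' (range (2 * S + 1)) (2 * S) (fun t => sq (φ t)),
      if_pos (mem_range.2 (by omega)), if_pos (mem_range.2 (by omega)), sum_add_distrib]
    have e2 : ∑ t ∈ range (2 * S + 1), sq (φ t) = ∑ t ∈ range (2 * S), sq (φ t) + sq (φ (2 * S)) :=
      sum_range_succ _ _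
    have e3 : ∑ t ∈ range (2 * S + 1), sq (φ t) = ∑ t ∈ range (2 * S), sq (φ (t + 1)) + sq (φ 0) :=
      sum_range_succ' _ _
    linear_combination L2 / 2 * e2 + L2 / 2 * e3
  have h3 : ∑ t ∈ range (2 * S), sq (Vi f w (t + 1) (φ (t + 1)) - Vi f w t (φ t)) =
      ∑ t ∈ range (2 * S), (sq (φ t) + sq (φ (t + 1))) -
        (∑ t ∈ range (2 * S), ∑ x, φ t x * Wt f w t (φ (t + 1)) x +
          ∑ t ∈ range (2 * S), ∑ x, φ (t + 1) x * Wt f w t (φ t) x) := by
    rw [← sum_add_distrib, ← sum_sub_distrib]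
    exact sum_congr rfl fun t ht => (prop_eq hwf φ (mem_range.1 ht)).symm
  rw [h2, h3]
  simp only [hφ]
  ring

/-- lower bound for legal states -/
theorem En_legal_ge (h : LayC dat c S) (hS : 0 < S) (f : ℕ → ι)
    (w : ℕ → Bool → Option (ι × ℕ))
    (hw : ∀ j < S, ∀ e s k, w j e = some (s, k) → s ≠ f j) (anc : List ι) (out : ι)
    (L1 L2 : ℝ)
    (hL2 : ((2 * S : ℕ) + 1 : ℝ) ^ 2 * (16 * (17 * anc.length + 1) + 1) ≤ L2)
    (hrej : ∀ φ : (ι → Bool) → ℝ, AncZero anc φ →
      (∑ x, if x out then Vf f w (2 * S) φ x ^ 2 else 0) ≤ 1 / 3 * sq φ)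
    (ψ : (κ → Bool) → ℝ) (hψ : ∀ z, ¬ Leg h f z → ψ z = 0) :
    75 / 128 / ((2 * S : ℕ) + 1) * sq ψ ≤ En dat c S f w anc out L1 L2 17 ψ := by
  have hwf : ∀ t < 2 * S, WFt f w t := fun t ht e s k hk => hw (t / 2) (by omega) e s k hk
  rw [En_legal h hS f w hw anc out L1 L2 17 ψ hψ]
  set T : ℕ := 2 * S with hTdef
  set φ : ℕ → (ι → Bool) → ℝ := fun t x => ψ (leg h f t x) with hφ
  set χ : ℕ → (ι → Bool) → ℝ := fun t => Vi f w t (φ t) with hχ
  set η := mean T χ with hη
  set R := ∑ t ∈ range (T + 1), sq (χ t - η) with hR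
  have hR0 : 0 ≤ R := sum_nonneg fun _ _ => sq_nonneg' _
  have hT1 : (0 : ℝ) < (T : ℝ) + 1 := by positivity
  -- norm
  have hnorm : sq ψ = (T + 1) * sq η + R := by
    have e1 : sq ψ = ∑ t ∈ range (T + 1), sq (φ t) := by
      unfold sq
      exact sum_legal h f (fun z => ψ z ^ 2) fun z hz => by simp only [hψ z hz]; ring
    have e2 : ∑ t ∈ range (T + 1), sq (φ t) = ∑ t ∈ range (T + 1), sq (χ t) :=
      sum_congr rfl fun t ht => (sq_Vi (t := t)
        (fun s hs => hwf s (by have := mem_range.1 ht; omega)) (φ t)).symm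
    rw [e1, e2, seq_mean T χ]
  -- propagation
  have hprop : (16 * (17 * anc.length + 1) + 1) * R ≤ L2 / 2 * ∑ t ∈ range T,
      sq (χ (t + 1) - χ t) := by
    have e1 := seq_path T χ
    have e0 : 0 ≤ ∑ t ∈ range T, sq (χ (t + 1) - χ t) := sum_nonneg fun _ _ => sq_nonneg' _
    have e2 : ((T : ℝ) + 1) ^ 2 * (16 * (17 * anc.length + 1) + 1) / 2 * ∑ t ∈ range T,
        sq (χ (t + 1) - χ t) ≤ L2 / 2 * ∑ t ∈ range T, sq (χ (t + 1) - χ t) :=
      mul_le_mul_of_nonneg_right (by linarith) e0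
    have e3 : (0 : ℝ) ≤ 16 * (17 * anc.length + 1) + 1 := by positivity
    have e4 := mul_le_mul_of_nonneg_left e1 e3
    calc (16 * (17 * anc.length + 1) + 1) * R
        ≤ (16 * (17 * anc.length + 1) + 1) * (((T : ℝ) + 1) ^ 2 / 2 *
            ∑ t ∈ range T, sq (χ (t + 1) - χ t)) := e4
      _ = ((T : ℝ) + 1) ^ 2 * (16 * (17 * anc.length + 1) + 1) / 2 * ∑ t ∈ range T,
        sq (χ (t + 1) - χ t) := by ring
      _ ≤ _ := e2
  -- penalties: only the times 0 and T are used
  set P : ℕ → ℝ := fun t => ∑ x,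
        (17 * ((if tau f 0 false x ≤ t then 0 else 1) * nviol anc x) +
        (if tau f (S - 1) true x ≤ t then 1 else 0) * (1 - nb (x out))) * ψ (leg h f t x) ^ 2
    with hP
  have hPn : ∀ t, 0 ≤ P t := fun t => sum_nonneg fun x _ => by
    have a := nviol_nonneg anc x
    have b := nb_le_one (x out)
    refine mul_nonneg (add_nonneg ?_ ?_) (sq_nonneg _)
    · split_ifs
      · simp
      · linarith
    · split_ifs <;> linarith
  have hP0 : 17 * ∑ x, nviol anc x * φ 0 x ^ 2 ≤ P 0 := by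
    rw [hP, mul_sum]
    refine sum_le_sum fun x _ => ?_
    have a := tau_ge f 0 false x
    have a' := tau_ge f (S - 1) true x
    rw [if_neg (by omega), if_neg (by omega)]
    simp only [hφ]
    exact le_of_eq (by ring)
  have hPT : ∑ x, (1 - nb (x out)) * φ T x ^ 2 ≤ P T := by
    rw [hP]
    refine sum_le_sum fun x _ => ?_
    have a := tau_le f 0 false x
    have a' := tau_le f (S - 1) true x
    rw [if_pos (by omega), if_pos (by omega)]
    simp only [hφ]
    exact le_of_eq (by ring)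
  have hPsum : P 0 + P T ≤ ∑ t ∈ range (T + 1), P t := by
    have e1 : ∑ t ∈ ({0, T} : Finset ℕ), P t ≤ ∑ t ∈ range (T + 1), P t := by
      refine sum_le_sum_of_subset_of_nonneg ?_ fun t _ _ => hPn t
      intro t ht
      rcases mem_insert.1 ht with rfl | ht
      · exact mem_range.2 (by omega)
      · rw [mem_singleton.1 ht]; exact mem_range.2 (by omega)
    rwa [sum_pair (by omega : (0 : ℕ) ≠ T)] at e1
  -- in terms of η
  have hVT : ∀ φ' : (ι → Bool) → ℝ, sq (Vf f w T φ') = sq φ' := fun φ' => sq_Vf hwf φ'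
  have hr0 : sq (χ 0 - η) ≤ R :=
    single_le_sum (f := fun t => sq (χ t - η)) (fun _ _ => sq_nonneg' _) (mem_range.2 (by omega))
  have hrT : sq (χ T - η) ≤ R :=
    single_le_sum (f := fun t => sq (χ t - η)) (fun _ _ => sq_nonneg' _) (mem_range.2 (by omega))
  have hA0 : 15 / 16 * ∑ x, nviol anc x * η x ^ 2 - 16 * anc.length * R ≤
      ∑ x, nviol anc x * φ 0 x ^ 2 := by
    have e1 := wsq_add_ge (nviol_nonneg anc) (nviol_le anc) η (χ 0 - η)
    have e2 : η + (χ 0 - η) = φ 0 := by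
      rw [add_sub_cancel]; rfl
    rw [e2] at e1
    have e3 : (16 : ℝ) * anc.length * sq (χ 0 - η) ≤ 16 * anc.length * R :=
      mul_le_mul_of_nonneg_left hr0 (by positivity)
    linarith
  have hAT : 15 / 16 * ∑ x, (1 - nb (x out)) * Vf f w T η x ^ 2 - 16 * R ≤
      ∑ x, (1 - nb (x out)) * φ T x ^ 2 := by
    have e1 := wsq_add_ge (m := fun x : ι → Bool => 1 - nb (x out)) (M := 1)
      (fun x => by have := nb_le_one (x out); linarith)
      (fun x => by have := nb_nonneg (x out); linarith) (Vf f w T η) (Vf f w T (χ T - η))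
    have e2 : Vf f w T η + Vf f w T (χ T - η) = φ T := by
      rw [← map_add, add_sub_cancel]
      exact Vf_Vi hwf (φ T)
    rw [e2, hVT] at e1
    linarith
  have hmean := mean_energy anc out (Vf f w T) hVT hrej η
  have hη0 := sq_nonneg' η
  have hfin : 75 / 128 * sq η + R ≤
      L2 / 2 * ∑ t ∈ range T, sq (χ (t + 1) - χ t) + ∑ t ∈ range (T + 1), P t := by
    nlinarith
  have hgoal : 75 / 128 / ((T : ℝ) + 1) * sq ψ ≤ 75 / 128 * sq η + R := by
    rw [hnorm]
    have e1 : 75 / 128 / ((T : ℝ) + 1) * ((T + 1) * sq η + R) =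
        75 / 128 * sq η + 75 / 128 / ((T : ℝ) + 1) * R := by
      field_simp
    have e2 : 75 / 128 / ((T : ℝ) + 1) ≤ 1 := by
      rw [div_le_one hT1]
      have : (0 : ℝ) ≤ T := Nat.cast_nonneg T
      linarith
    rw [e1]
    nlinarith
  exact hgoal.trans hfin

end

end Vale.Agent.P370.H220
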