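import Vale.Agent.P370.H220.ClockLeg

/-!
# P370, block F1: sums over legal configurations and the transfer terms
-/

namespace Vale.Agent.P370.H220

open Finset

section
variable {ι κ : Type*} [DecidableEq ι] [DecidableEq κ]
  {dat : ι → κ} {c : ℕ → Bool → κ} {S : ℕ}

/-- legal configurations -/
def Leg (h : LayC dat c S) (f : ℕ → ι) (z : κ → Bool) : Prop :=
  ∃ t ≤ 2 * S, z = leg h f t (fun i => z (dat i))

omit [DecidableEq ι] [DecidableEq κ] in
theorem leg_Leg (h : LayC dat c S) (f : ℕ → ι) {t : ℕ} (ht : t ≤ 2 * S) (x : ι → Bool) :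
    Leg h f (leg h f t x) := by
  refine ⟨t, ht, ?_⟩
  have : (fun i => leg h f t x (dat i)) = x := by funext i; exact leg_dat h f t x i
  rw [this]

variable [Fintype ι] [Fintype κ]

theorem sum_legal (h : LayC dat c S) (f : ℕ → ι) (F : (κ → Bool) → ℝ)
    (hF : ∀ z, ¬ Leg h f z → F z = 0) :
    ∑ z, F z = ∑ t ∈ range (2 * S + 1), ∑ x, F (leg h f t x) := by
  rw [Finset.sum_range]
  rw [← Fintype.sum_prod_type' (f := fun (t : Fin (2 * S + 1)) (x : ι → Bool) => F (leg h f t x))]
  symm
  refine Fintype.sum_of_injective (fun p : Fin (2 * S + 1) × (ι → Bool) => leg h f p.1 p.2)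
    ?_ _ _ ?_ ?_
  · rintro ⟨t, x⟩ ⟨t', x'⟩ hh
    obtain ⟨h1, h2⟩ := leg_inj h f (Nat.lt_succ_iff.1 t.2) (Nat.lt_succ_iff.1 t'.2) hh
    exact Prod.ext (Fin.ext h1) h2
  · intro z hz
    refine hF z fun hl => hz ?_
    obtain ⟨t, ht, hz'⟩ := hl
    exact ⟨(⟨t, Nat.lt_succ_iff.2 ht⟩, fun i => z (dat i)), hz'.symm⟩
  · intro p; rfl

omit [DecidableEq ι] [DecidableEq κ] [Fintype ι] [Fintype κ] in
/-- neighbours of legal configurations -/
theorem nbr_val (h : LayC dat c S) (f : ℕ → ι) (ψ : (κ → Bool) → ℝ)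
    (hψ : ∀ z, ¬ Leg h f z → ψ z = 0) {t j : ℕ} {e : Bool} (ht : t ≤ 2 * S) (hj : j < S)
    {x x' : ι → Bool} (hx : x' (f j) = x (f j)) {z : κ → Bool} (hzd : ∀ i, z (dat i) = x' i)
    (hzc : z (c j e) = !(leg h f t x (c j e)))
    (hzo : ∀ j' < S, ∀ e', ¬ (j' = j ∧ e' = e) → z (c j' e') = leg h f t x (c j' e')) :
    ψ z = (if tau f j e x = t + 1 then ψ (leg h f (t + 1) x') else 0) +
      (if tau f j e x = t then ψ (leg h f (t - 1) x') else 0) := by
  have hτ : tau f j e x' = tau f j e x := tau_congr f j e hx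
  have hge := tau_ge f j e x
  have hle := tau_le f j e x
  by_cases h1 : tau f j e x = t + 1
  · rw [if_pos h1, if_neg (by omega), add_zero]
    congr 1
    refine h.ext (fun i => by rw [hzd, leg_dat]) fun j' hj' e' => ?_
    rw [leg_c h f _ _ hj']
    by_cases h2 : j' = j ∧ e' = e
    · obtain ⟨rfl, rfl⟩ := h2
      rw [hzc, leg_c h f _ _ hj', hτ, h1]
      simp
    · rw [hzo j' hj' e' h2, leg_c h f _ _ hj']
      by_cases h3 : j' = j
      · subst h3
        have h4 : e' = !e := by
          refine Bool.eq_not.2 fun h5 => h2 ⟨rfl, h5⟩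
        subst h4
        have h5 : tau f j' (!e) x' = tau f j' (!e) x := tau_congr f j' _ hx
        have h6 := tau_ne f j' e x
        rw [h5]
        exact decide_eq_decide.2 (by omega)
      · have a1 := tau_ge f j' e' x
        have a2 := tau_le f j' e' x
        have a3 := tau_ge f j' e' x'
        have a4 := tau_le f j' e' x'
        exact decide_eq_decide.2 (by omega)
  by_cases h0 : tau f j e x = t
  · rw [if_neg h1, if_pos h0, zero_add]
    congr 1
    refine h.ext (fun i => by rw [hzd, leg_dat]) fun j' hj' e' => ?_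
    rw [leg_c h f _ _ hj']
    by_cases h2 : j' = j ∧ e' = e
    · obtain ⟨rfl, rfl⟩ := h2
      rw [hzc, leg_c h f _ _ hj', hτ, h0, decide_eq_true le_rfl,
        decide_eq_false (by omega : ¬ t ≤ t - 1)]
      rfl
    · rw [hzo j' hj' e' h2, leg_c h f _ _ hj']
      by_cases h3 : j' = j
      · subst h3
        have h4 : e' = !e := by
          refine Bool.eq_not.2 fun h5 => h2 ⟨rfl, h5⟩
        subst h4
        have h5 : tau f j' (!e) x' = tau f j' (!e) x := tau_congr f j' _ hx
        have h6 := tau_ne f j' e x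
        rw [h5]
        exact decide_eq_decide.2 (by omega)
      · have a1 := tau_ge f j' e' x
        have a2 := tau_le f j' e' x
        have a3 := tau_ge f j' e' x'
        have a4 := tau_le f j' e' x'
        exact decide_eq_decide.2 (by omega)
  rw [if_neg h1, if_neg h0, add_zero]
  refine hψ z ?_
  rintro ⟨t', ht', hz⟩
  have hx' : (fun i => z (dat i)) = x' := funext hzd
  rw [hx'] at hz
  -- bit (j, e)
  have hb := hzc
  rw [hz, leg_c h f _ _ hj, leg_c h f _ _ hj, hτ] at hb
  rcases Nat.lt_or_ge t (tau f j e x) with h2 | h2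
  · -- t < tau, so tau ≤ t'
    have h3 : tau f j e x ≤ t' := by
      by_contra h4
      rw [decide_eq_false h4, decide_eq_false (by omega)] at hb
      exact absurd hb (by simp)
    have h5 : t / 2 < S := by omega
    have h6 := tau_bit f t x
    have h7 := hzo (t / 2) h5 (bit f t x) (by
      rintro ⟨h8, h9⟩
      rw [h8, h9] at h6
      omega)
    rw [hz, leg_c h f _ _ h5, leg_c h f _ _ h5, h6, decide_eq_false (by omega : ¬ t + 1 ≤ t)] at h7
    have h8 := tau_le f (t / 2) (bit f t x) x'
    rw [decide_eq_true (by omega)] at h7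
    exact absurd h7 (by simp)
  · -- tau ≤ t, so t' < tau
    have h3 : t' < tau f j e x := by
      by_contra h4
      rw [decide_eq_true (by omega), decide_eq_true h2] at hb
      exact absurd hb (by simp)
    have h5 : (t - 1) / 2 < S := by omega
    have h6 := tau_bit f (t - 1) x
    have h6' : tau f ((t - 1) / 2) (bit f (t - 1) x) x = t := by omega
    have h7 := hzo ((t - 1) / 2) h5 (bit f (t - 1) x) (by
      rintro ⟨h8, h9⟩
      rw [h8, h9] at h6'
      omega)
    rw [hz, leg_c h f _ _ h5, leg_c h f _ _ h5, h6', decide_eq_true (le_refl t)] at h7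
    have h8 := tau_ge f ((t - 1) / 2) (bit f (t - 1) x) x'
    rw [decide_eq_false (by omega)] at h7
    exact absurd h7 (by simp)

/-- relabelled reflection -/
def wmap (dat : ι → κ) (w : Option (ι × ℕ)) : Option (κ × ℕ) := w.map fun p => (dat p.1, p.2)

omit [Fintype ι] [Fintype κ] in
theorem rop_leg (h : LayC dat c S) (f : ℕ → ι) (ψ : (κ → Bool) → ℝ)
    (hψ : ∀ z, ¬ Leg h f z → ψ z = 0) {t j : ℕ} {e : Bool} (ht : t ≤ 2 * S) (hj : j < S)
    (w : Option (ι × ℕ)) (hw : ∀ s k, w = some (s, k) → s ≠ f j) (x : ι → Bool) :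
    rop (wmap dat w) (fun z => ψ (flp (c j e) z)) (leg h f t x) =
      (if tau f j e x = t + 1 then rop w (fun y => ψ (leg h f (t + 1) y)) x else 0) +
      (if tau f j e x = t then rop w (fun y => ψ (leg h f (t - 1) y)) x else 0) := by
  have hself : ψ (flp (c j e) (leg h f t x)) =
      (if tau f j e x = t + 1 then ψ (leg h f (t + 1) x) else 0) +
      (if tau f j e x = t then ψ (leg h f (t - 1) x) else 0) := by
    refine nbr_val h f ψ hψ ht hj (x' := x) rfl (fun i => ?_) (flp_same _ _) fun j' hj' e' hne => ?_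
    · rw [flp_ne (fun h1 => h.c_dat j e i hj h1.symm), leg_dat]
    · rw [flp_ne fun h1 => hne (h.c_inj _ _ _ _ hj' hj h1)]
  rcases w with _ | ⟨s, k⟩
  · simp only [wmap, Option.map_none, rop]
    exact hself
  · simp only [wmap, Option.map_some, rop]
    have hs : s ≠ f j := hw s k rfl
    have hother : ψ (flp (c j e) (flp (dat s) (leg h f t x))) =
        (if tau f j e x = t + 1 then ψ (leg h f (t + 1) (flp s x)) else 0) +
        (if tau f j e x = t then ψ (leg h f (t - 1) (flp s x)) else 0) := by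
      refine nbr_val h f ψ hψ ht hj (x' := flp s x) (flp_ne (Ne.symm hs) x) (fun i => ?_) ?_
        fun j' hj' e' hne => ?_
      · rw [flp_ne (fun h1 => h.c_dat j e i hj h1.symm)]
        by_cases hi : i = s
        · subst hi; rw [flp_same, flp_same, leg_dat]
        · rw [flp_ne hi, flp_ne (fun h1 => hi (h.dat_inj h1)), leg_dat]
      · rw [flp_same, flp_ne (h.c_dat j e s hj)]
      · rw [flp_ne fun h1 => hne (h.c_inj _ _ _ _ hj' hj h1), flp_ne (h.c_dat j' e' s hj')]
    rw [hself, hother, leg_dat]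
    split_ifs <;> ring

/-- the transfer operator from time `t` to `t + 1` (and back) -/
noncomputable def Wt (f : ℕ → ι) (w : ℕ → Bool → Option (ι × ℕ)) (t : ℕ)
    (φ : (ι → Bool) → ℝ) : (ι → Bool) → ℝ :=
  fun x => rop (w (t / 2) (bit f t x)) φ x

theorem sum_trf (h : LayC dat c S) (f : ℕ → ι) (w : ℕ → Bool → Option (ι × ℕ))
    (hw : ∀ j < S, ∀ e s k, w j e = some (s, k) → s ≠ f j) (ψ : (κ → Bool) → ℝ)
    (hψ : ∀ z, ¬ Leg h f z → ψ z = 0) :
    ∑ j ∈ range S, ∑ e : Bool, trf (c j e) (wmap dat (w j e)) ψ ψ =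
      ∑ t ∈ range (2 * S), ∑ x, ψ (leg h f t x) * Wt f w t (fun y => ψ (leg h f (t + 1) y)) x +
      ∑ t ∈ range (2 * S), ∑ x, ψ (leg h f (t + 1) x) * Wt f w t (fun y => ψ (leg h f t y)) x := by
  -- each transfer form as a sum over legal configurations
  have h1 : ∀ j ∈ range S, ∀ e : Bool, trf (c j e) (wmap dat (w j e)) ψ ψ =
      ∑ t ∈ range (2 * S + 1), ∑ x, (ψ (leg h f t x) *
        (if tau f j e x = t + 1 then rop (w j e) (fun y => ψ (leg h f (t + 1) y)) x else 0) +
        ψ (leg h f t x) *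
        (if tau f j e x = t then rop (w j e) (fun y => ψ (leg h f (t - 1) y)) x else 0)) := by
    intro j hj e
    unfold trf
    rw [sum_legal h f _ fun z hz => by rw [hψ z hz, zero_mul]]
    refine sum_congr rfl fun t ht => sum_congr rfl fun x _ => ?_
    rw [rop_leg h f ψ hψ (Nat.lt_succ_iff.1 (mem_range.1 ht)) (mem_range.1 hj) (w j e)
      (hw j (mem_range.1 hj) e) x, mul_add]
  rw [sum_congr rfl fun j hj => sum_congr rfl fun e _ => h1 j hj e]
  -- exchange the sums
  have h2 : ∑ j ∈ range S, ∑ e : Bool, ∑ t ∈ range (2 * S + 1), ∑ x, (ψ (leg h f t x) *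
        (if tau f j e x = t + 1 then rop (w j e) (fun y => ψ (leg h f (t + 1) y)) x else 0) +
        ψ (leg h f t x) *
        (if tau f j e x = t then rop (w j e) (fun y => ψ (leg h f (t - 1) y)) x else 0)) =
      ∑ t ∈ range (2 * S + 1), ∑ x, (ψ (leg h f t x) * ∑ j ∈ range S, ∑ e : Bool,
        (if tau f j e x = t + 1 then rop (w j e) (fun y => ψ (leg h f (t + 1) y)) x else 0) +
        ψ (leg h f t x) * ∑ j ∈ range S, ∑ e : Bool,
        (if tau f j e x = t then rop (w j e) (fun y => ψ (leg h f (t - 1) y)) x else 0)) := by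
    have e1 : ∀ j ∈ range S, ∑ e : Bool, ∑ t ∈ range (2 * S + 1), ∑ x, (ψ (leg h f t x) *
        (if tau f j e x = t + 1 then rop (w j e) (fun y => ψ (leg h f (t + 1) y)) x else 0) +
        ψ (leg h f t x) *
        (if tau f j e x = t then rop (w j e) (fun y => ψ (leg h f (t - 1) y)) x else 0)) =
        ∑ t ∈ range (2 * S + 1), ∑ x, ∑ e : Bool, (ψ (leg h f t x) *
        (if tau f j e x = t + 1 then rop (w j e) (fun y => ψ (leg h f (t + 1) y)) x else 0) +
        ψ (leg h f t x) *
        (if tau f j e x = t then rop (w j e) (fun y => ψ (leg h f (t - 1) y)) x else 0)) := by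
      intro j _
      rw [sum_comm]
      exact sum_congr rfl fun t _ => sum_comm
    rw [sum_congr rfl e1, sum_comm]
    refine sum_congr rfl fun t _ => ?_
    rw [sum_comm]
    refine sum_congr rfl fun x _ => ?_
    simp only [mul_sum, ← sum_add_distrib]
  rw [h2]
  -- the selected bits
  have h3 : ∀ (x : ι → Bool) (t : ℕ) (G : ℕ → Bool → ℝ), t < 2 * S →
      ∑ j ∈ range S, ∑ e : Bool, (if tau f j e x = t + 1 then G j e else 0) =
        G (t / 2) (bit f t x) := by
    intro x t G ht
    rw [sum_eq_single (t / 2), sum_eq_single (bit f t x)]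
    · rw [if_pos (tau_bit f t x)]
    · intro e _ he
      rw [if_neg]
      intro h4
      exact he ((tau_eq_iff f t _ e x).1 h4).2
    · intro h4; exact absurd (mem_univ _) h4
    · intro j _ hj
      refine sum_eq_zero fun e _ => ?_
      rw [if_neg]
      intro h4
      exact hj ((tau_eq_iff f t j e x).1 h4).1
    · intro h4
      exact absurd (mem_range.2 (by omega)) h4
  have h4 : ∀ (x : ι → Bool) (G : ℕ → Bool → ℝ),
      ∑ j ∈ range S, ∑ e : Bool, (if tau f j e x = 2 * S + 1 then G j e else 0) = 0 := by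
    intro x G
    refine sum_eq_zero fun j hj => sum_eq_zero fun e _ => ?_
    have := tau_le f j e x
    have := mem_range.1 hj
    rw [if_neg (by omega)]
  have h5 : ∀ (x : ι → Bool) (G : ℕ → Bool → ℝ),
      ∑ j ∈ range S, ∑ e : Bool, (if tau f j e x = 0 then G j e else 0) = 0 := by
    intro x G
    refine sum_eq_zero fun j hj => sum_eq_zero fun e _ => ?_
    have := tau_ge f j e x
    rw [if_neg (by omega)]
  simp only [sum_add_distrib]
  congr 1
  · rw [sum_range_succ]
    have e1 : ∑ x, ψ (leg h f (2 * S) x) * ∑ j ∈ range S, ∑ e : Bool,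
        (if tau f j e x = 2 * S + 1 then
          rop (w j e) (fun y => ψ (leg h f (2 * S + 1) y)) x else 0) = 0 :=
      sum_eq_zero fun x _ => by rw [h4, mul_zero]
    rw [e1, add_zero]
    refine sum_congr rfl fun t ht => sum_congr rfl fun x _ => ?_
    rw [h3 x t (fun j e => rop (w j e) (fun y => ψ (leg h f (t + 1) y)) x) (mem_range.1 ht)]
    rfl
  · rw [sum_range_succ']
    have e1 : ∑ x, ψ (leg h f 0 x) * ∑ j ∈ range S, ∑ e : Bool,
        (if tau f j e x = 0 then
          rop (w j e) (fun y => ψ (leg h f (0 - 1) y)) x else 0) = 0 :=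
      sum_eq_zero fun x _ => by rw [h5, mul_zero]
    rw [e1, add_zero]
    refine sum_congr rfl fun t ht => sum_congr rfl fun x _ => ?_
    rw [h3 x t (fun j e => rop (w j e) (fun y => ψ (leg h f (t + 1 - 1) y)) x) (mem_range.1 ht)]
    rfl

end

end Vale.Agent.P370.H220
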